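import Vale.Agent.P321.R2.H613.Good6

/-! # Statement of the analytic step of degree four -/

namespace Vale.Agent.P321.H778

open Complex Finset Vale.Agent.P321.UB Vale.Agent.P321.R2.H613

/-- Pairs of sequences of type `(f, f')`: the sequence itself, or `S_z` of it, or `S_z` of it
including the current element. -/
def Derived3 (κ Y : ℝ) (f f' F F' : ℕ → ℂ) : Prop :=
  (F = f ∧ F' = f') ∨
    (∃ y : ℝ, |y| ≤ Y ∧ F = seqS (cexp (-((κ : ℂ) + y * I))) f ∧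
      F' = seqS (cexp (-((κ : ℂ) + y * I))) f') ∨
    (∃ y : ℝ, |y| ≤ Y ∧
      F = (fun i => cexp (-((κ : ℂ) + y * I)) * seqS (cexp (-((κ : ℂ) + y * I))) f i + f i) ∧
      F' = (fun i => cexp (-((κ : ℂ) + y * I)) * seqS (cexp (-((κ : ℂ) + y * I))) f' i + f' i))

/-- The analytic step of degree four: tests at the scales `κ0 / K ^ j`, `j ≤ S`, of cost `D` give
a test of cost `lam * D` at the scale `100 κ`. -/
def StepQ (lam β Y V E K : ℝ) (S : ℕ) : Prop :=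
  ∀ (n i1 : ℕ) (f f' : ℕ → ℕ → ℂ) (D κ0 κ : ℝ) (s0 : ℕ → ℂ), i1 ≤ n →
    (∀ j i, (starRingEnd ℂ) (f j i) = f j i) → (∀ j i, (starRingEnd ℂ) (f' j i) = f' j i) →
    E ≤ D → (∀ j ≤ S, ∀ i ≤ n, ‖f j i‖ ≤ 1 ∧ ‖f' j i‖ ≤ 1) →
    (∀ j ≤ S, ∀ i < i1, f j i = f' j i) → Real.exp (-(D / E)) ≤ κ → V * κ ≤ κ0 / K ^ S →
    V * κ0 ≤ 1 →
    (∀ j ≤ S, (s0 j).re = κ0 / K ^ j ∧ |(s0 j).im| ≤ β * (κ0 / K ^ j) ∧
      Real.exp (-D) ≤ ‖NN n i1 (f j) (f' j) (s0 j)‖) →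
    ∃ g g' F F' : Fin 4 → ℕ → ℂ,
      (∀ m, ∃ j ≤ S, Simple6 (f j) (f' j) (g m) (g' m)) ∧
      (∀ m, Derived3 κ (Y * κ0) (g m) (g' m) (F m) (F' m)) ∧
      ∃ s : ℂ, s.re = 100 * κ ∧ |s.im| ≤ β * (100 * κ) ∧
        Real.exp (-(lam * D)) ≤
          ‖NN n i1 (fun i => F 0 i * F 1 i * F 2 i * F 3 i)
            (fun i => F' 0 i * F' 1 i * F' 2 i * F' 3 i) s‖

end Vale.Agent.P321.H778
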