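import Vale.Agent.P321.H778.GapF
import Vale.Agent.P321.H778.StepQ

/-! # State of the iteration with tests at several scales, degree four -/

namespace Vale.Agent.P321.H778

open Complex Finset Vale.Agent.P321.UB Vale.Agent.P321.R2.H613

/-- A test at one scale. -/
def GoodO (A m β : ℝ) (x x' : List Bool) (i1 : ℕ) (c : ℝ) (k : ℕ) (κ D : ℝ) : Prop :=
  GoodF A m β (fun _ => 1) x x' i1 c k κ D

/-- Tests at the scales `κ / K ^ j`, `j ≤ S`. -/
def GoodQ (A m β K : ℝ) (S : ℕ) (x x' : List Bool) (i1 : ℕ) (c : ℝ) (k : ℕ) (κ D : ℝ) : Prop :=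
  ∀ j ≤ S, GoodO A m β x x' i1 c k (κ / K ^ j) D

theorem goodQ_base {A m β K : ℝ} {S : ℕ} (hA : 0 ≤ A) (hβ : 1 ≤ β) (hK : 1 ≤ K)
    {κb : ℝ} (hκb : 0 < κb) (hκb1 : κb ≤ 1 / 10) {x x' : List Bool} {i1 : ℕ}
    (hi : i1 ≤ x.length) (hd : ∀ r : ℝ, 0 ≤ r → ‖sq x (tau0 r) i1 - sq x' (tau0 r) i1‖ = r)
    {D : ℝ} (hD : (4 * K ^ S / κb + 1) * (4 * K ^ S / κb) ≤ D) :
    GoodQ A m β K S x x' i1 1 1 κb D := by
  intro j hj
  have hKj : 1 ≤ K ^ j := one_le_pow₀ hK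
  have hKS : K ^ j ≤ K ^ S := pow_le_pow_right₀ hK hj
  refine goodF_base hA hβ one_pos (fun _ _ _ => le_rfl) (by positivity)
    ((div_le_self hκb.le hKj).trans hκb1) hi hd ?_
  have e1 : 4 / (κb / K ^ j) = 4 * K ^ j / κb := by field_simp
  have e2 : 4 * K ^ j / κb ≤ 4 * K ^ S / κb := by gcongr
  rw [e1, div_one]
  refine le_trans ?_ hD
  gcongr

/-- The strings version of a derived pair. -/
theorem exists_cls_of_derived3 {x x' : List Bool} (hl : x.length = x'.length) {A m c : ℝ}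
    (hm : 0 < m) (hc : 1 ≤ c) {k : ℕ} {τ : List Bool → ℂ} {κ Y : ℝ} (hκ : 0 < κ) (hκ1 : κ ≤ 1)
    (hY : Y ≤ A * κ + Real.sqrt (κ / m)) (ht : Cls (Wt A m c) k 1 τ) {g g' F F' : ℕ → ℂ}
    (hS : Simple6 (sq x τ) (sq x' τ) g g') (h : Derived3 κ Y g g' F F') :
    ∃ H : List Bool → ℂ, Cls (Wt A m c) (k + 1) (2 / κ) H ∧
      (∀ i ≤ x.length, sq x H i = F i) ∧ (∀ i ≤ x.length, sq x' H i = F' i) := by
  rcases h with h | h | h
  · exact exists_cls_of_derived hl hm hc hκ hκ1 hY ht hS (Or.inl h)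
  · exact exists_cls_of_derived hl hm hc hκ hκ1 hY ht hS (Or.inr h)
  · obtain ⟨G, hG, hg, hg'⟩ : ∃ G : List Bool → ℂ, Cls (Wt A m c) k 1 G ∧ g = sq x G ∧
        g' = sq x' G := by
      rcases hS with ⟨rfl, rfl⟩ | ⟨rfl, rfl⟩
      · exact ⟨τ, ht, rfl, rfl⟩
      · exact ⟨fun _ => 1, Cls.one le_rfl, rfl, rfl⟩
    subst hg hg'
    obtain ⟨y, hy, rfl, rfl⟩ := h
    have hw1 : Wt A m 1 (cexp (-((κ : ℂ) + y * I))) := wt_of hκ (hy.trans hY)
    have hw := hw1.mono hm hc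
    set z : ℂ := cexp (-((κ : ℂ) + y * I)) with hz
    refine ⟨fun u => z * Sz z G u + G u, ?_, fun i hi => ?_, fun i hi => ?_⟩
    · have h1 := ((hG.sz hw hw.norm_lt).smul z).add
        (hG.mono (fun _ h => h) (Nat.le_succ k) le_rfl)
      refine h1.mono (fun _ h => h) le_rfl ?_
      have hn : ‖z‖ = Real.exp (-κ) := by
        rw [hz, Complex.norm_exp]
        simp
      have h1 : κ / 2 ≤ 1 - Real.exp (-κ) := by
        have h3 : Real.exp (-κ) * Real.exp κ = 1 := by rw [← Real.exp_add]; simp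
        have h4 := Real.add_one_le_exp κ
        have h5 := Real.exp_pos (-κ)
        nlinarith
      have hz1 : 0 < 1 - ‖z‖ := by rw [hn]; linarith
      have e : ‖z‖ * (1 * (1 / (1 - ‖z‖))) + 1 = 1 / (1 - ‖z‖) := by
        field_simp
        ring
      rw [e, hn]
      calc 1 / (1 - Real.exp (-κ)) ≤ 1 / (κ / 2) := one_div_le_one_div_of_le (by positivity) h1
        _ = 2 / κ := by field_simp
    · beta_reduce
      rw [← sq_Sz x z G i hi]
      rfl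
    · beta_reduce
      rw [← sq_Sz x' z G i (hl ▸ hi)]
      rfl

/-- The step at one scale. -/
theorem goodQ_step_one {lam β Y V E K : ℝ} {S : ℕ} (h5 : StepQ lam β Y V E K S)
    (hV : 1 ≤ V) (hK : 1 ≤ K) {δ E' : ℝ} (hE : E ≤ E') (hE0 : 0 < E)
    (hE' : 19 ≤ E' * δ)
    {A m : ℝ} (hm : 0 < m) {x x' : List Bool} {i1 : ℕ}
    (hl : x.length = x'.length)
    (hi : i1 ≤ x.length) (heq : ∀ τ, ∀ i < i1, sq x τ i = sq x' τ i)
    {c : ℝ} (hc : 1 ≤ c) {k : ℕ} {κ κ' D : ℝ} (hκ' : 0 < κ') (hκκ : V * κ' ≤ κ / K ^ S)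
    (hκ1 : V * κ ≤ 1) (hY : Y * κ ≤ A * κ' + Real.sqrt (κ' / m))
    (hD : ((k : ℝ) + 1) * E' ≤ D) (hκl : Real.exp (-(D / E')) ≤ κ')
    (h : GoodQ A m β K S x x' i1 c k κ D) :
    GoodO A m β x x' i1 (4 * c) (4 * k + 4) (100 * κ') ((lam + δ) * D) := by
  have h' : ∀ j : ℕ, ∃ τ : List Bool → ℂ, j ≤ S → ((∀ y, (starRingEnd ℂ) (τ y) = τ y) ∧
      Cls (Wt A m c) k 1 τ ∧ ∃ s : ℂ, s.re = κ / K ^ j ∧ |s.im| ≤ β * (κ / K ^ j) ∧
      Real.exp (-D) ≤ ‖NN x.length i1 (sq x τ) (sq x' τ) s‖) := by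
    intro j
    by_cases hj : j ≤ S
    · obtain ⟨τ, h1, h2, s, h3, h4, h6⟩ := h j hj
      rw [mul_one] at h6
      exact ⟨τ, fun _ => ⟨h1, h2, s, h3, h4, h6⟩⟩
    · exact ⟨fun _ => 0, fun h => absurd h hj⟩
  choose τ0 hτ0 using h'
  -- extend beyond S by zero
  set τ : ℕ → List Bool → ℂ := fun j => if j ≤ S then τ0 j else fun _ => 0 with hτdef
  have hτ : ∀ j ≤ S, τ j = τ0 j := fun j hj => by rw [hτdef]; simp [hj]
  have hreal : ∀ j y, (starRingEnd ℂ) (τ j y) = τ j y := by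
    intro j y
    by_cases hj : j ≤ S
    · rw [hτ j hj]; exact (hτ0 j hj).1 y
    · rw [hτdef]; simp [hj]
  have hcls : ∀ j ≤ S, Cls (Wt A m c) k 1 (τ j) := fun j hj => by
    rw [hτ j hj]; exact (hτ0 j hj).2.1
  have hs' : ∀ j : ℕ, ∃ s : ℂ, j ≤ S → (s.re = κ / K ^ j ∧ |s.im| ≤ β * (κ / K ^ j) ∧
      Real.exp (-D) ≤ ‖NN x.length i1 (sq x (τ j)) (sq x' (τ j)) s‖) := by
    intro j
    by_cases hj : j ≤ S
    · obtain ⟨s, h3, h4, h6⟩ := (hτ0 j hj).2.2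
      rw [← hτ j hj] at h6
      exact ⟨s, fun _ => ⟨h3, h4, h6⟩⟩
    · exact ⟨0, fun h => absurd h hj⟩
  choose s0 hs0 using hs'
  have hE'0 : 0 < E' := lt_of_lt_of_le hE0 hE
  have hk0 : (0 : ℝ) ≤ k := Nat.cast_nonneg k
  have hDE : E' ≤ D := by nlinarith
  have hD0 : 0 < D := by linarith
  have hKS : 1 ≤ K ^ S := one_le_pow₀ hK
  have hκ0 : 0 < κ / K ^ S := lt_of_lt_of_le (by positivity) hκκ
  have hκpos : 0 < κ := by
    by_contra hneg
    push Not at hneg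
    have : κ / K ^ S ≤ 0 := div_nonpos_of_nonpos_of_nonneg hneg (by positivity)
    linarith
  have hκκ' : κ' ≤ κ := by
    calc κ' ≤ V * κ' := le_mul_of_one_le_left hκ'.le hV
      _ ≤ κ / K ^ S := hκκ
      _ ≤ κ := div_le_self hκpos.le hKS
  have hκ'1 : κ' ≤ 1 := by
    have : κ ≤ V * κ := le_mul_of_one_le_left hκpos.le hV
    linarith
  have hWn : ∀ z, Wt A m c z → ‖z‖ < 1 := fun z hz => hz.norm_lt
  have hκl5 : Real.exp (-(D / E)) ≤ κ' := by
    refine le_trans (Real.exp_le_exp.2 (neg_le_neg ?_)) hκl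
    exact div_le_div_of_nonneg_left hD0.le hE0 hE
  obtain ⟨g, g', F, F', hS, hDer, s', hs1', hs2', hs3'⟩ := h5 x.length i1
    (fun j => sq x (τ j)) (fun j => sq x' (τ j)) D κ κ' s0 hi (fun j i => hreal j _)
    (fun j i => hreal j _) (hE.trans hDE)
    (fun j hj i _ => ⟨(hcls j hj).norm_le hWn _, (hcls j hj).norm_le hWn _⟩)
    (fun j _ => heq (τ j)) hκl5 hκκ hκ1 hs0
  have hex : ∀ a, ∃ H : List Bool → ℂ, Cls (Wt A m c) (k + 1) (2 / κ') H ∧
      (∀ i ≤ x.length, sq x H i = F a i) ∧ (∀ i ≤ x.length, sq x' H i = F' a i) := by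
    intro a
    obtain ⟨j, hj, hSj⟩ := hS a
    exact exists_cls_of_derived3 hl hm hc hκ' hκ'1 hY (hcls j hj) hSj (hDer a)
  choose H hH hHx hHx' using hex
  have hc0 : 0 ≤ c := by linarith
  have m1 := Cls.mul (W := Wt A m (c + c)) (hH 0) (hH 1)
    (fun z hz => hz.mono hm (by linarith)) (fun z hz => hz.mono hm (by linarith))
    (fun z w hz hw => hz.mul hw hm hc0 hc0) (fun z hz => hz.norm_lt)
  have m2 := Cls.mul (W := Wt A m (c + c + c)) m1 (hH 2)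
    (fun z hz => hz.mono hm (by linarith)) (fun z hz => hz.mono hm (by linarith))
    (fun z w hz hw => hz.mul hw hm (by linarith) hc0) (fun z hz => hz.norm_lt)
  have m3 := Cls.mul (W := Wt A m (c + c + c + c)) m2 (hH 3)
    (fun z hz => hz.mono hm (by linarith)) (fun z hz => hz.mono hm (by linarith))
    (fun z w hz hw => hz.mul hw hm (by linarith) hc0) (fun z hz => hz.norm_lt)
  have e4c : c + c + c + c = 4 * c := by ring
  rw [e4c] at m3
  set B : ℝ := 3 ^ (k + 1 + (k + 1) + (k + 1) + (k + 1)) *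
    (3 ^ (k + 1 + (k + 1) + (k + 1)) *
    (3 ^ (k + 1 + (k + 1)) * (2 / κ' * (2 / κ')) * (2 / κ')) * (2 / κ')) with hB
  have hB0 : 0 < B := by positivity
  have hT : Cls (Wt A m (4 * c)) (4 * k + 4) B (fun y => H 0 y * H 1 y * H 2 y * H 3 y) :=
    m3.mono (fun _ h => h) (by omega) le_rfl
  have hlogB : 2 * B ≤ Real.exp (δ * D) := by
    set y := D / E' with hy
    have hDy : D = E' * y := by rw [hy]; field_simp
    have hky : (k : ℝ) + 1 ≤ y := by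
      rw [hy, le_div_iff₀ hE'0]; exact hD
    have h2 : (2 : ℝ) ≤ Real.exp 1 := by
      have := Real.add_one_le_exp (1 : ℝ); linarith
    have h3 : (3 : ℝ) ≤ Real.exp (10 / 9) := by
      have h3a : (3 : ℝ) ^ 9 ≤ (Real.exp 1) ^ 10 := by
        have h9 : (2.71 : ℝ) ^ 10 ≤ (Real.exp 1) ^ 10 :=
          pow_le_pow_left₀ (by norm_num) (by linarith [Real.exp_one_gt_d9]) 10
        refine le_trans ?_ h9
        norm_num
      have h3b : (Real.exp (10 / 9)) ^ 9 = (Real.exp 1) ^ 10 := by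
        rw [← Real.exp_nat_mul, ← Real.exp_nat_mul]
        norm_num
      have h3c : (3 : ℝ) ^ 9 ≤ (Real.exp (10 / 9)) ^ 9 := by
        rw [h3b]; exact h3a
      exact le_of_pow_le_pow_left₀ (by norm_num) (Real.exp_pos _).le h3c
    have hinv : 1 / κ' ≤ Real.exp y := by
      rw [div_le_iff₀ hκ']
      have := mul_le_mul_of_nonneg_left hκl (Real.exp_pos y).le
      rw [← Real.exp_add, add_neg_cancel, Real.exp_zero] at this
      exact this
    have h2k : 2 / κ' ≤ Real.exp (1 + y) := by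
      calc 2 / κ' = 2 * (1 / κ') := by ring
        _ ≤ Real.exp 1 * Real.exp y := by gcongr
        _ = Real.exp (1 + y) := by rw [← Real.exp_add]
    have h3k : (3 : ℝ) ^ (k + 1) ≤ Real.exp (10 / 9 * y) := by
      calc (3 : ℝ) ^ (k + 1) ≤ (Real.exp (10 / 9)) ^ (k + 1) := by gcongr
        _ = Real.exp (((k : ℝ) + 1) * (10 / 9)) := by
          rw [← Real.exp_nat_mul]; congr 1; push_cast; ring
        _ ≤ Real.exp (10 / 9 * y) := Real.exp_le_exp.2 (by linarith)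
    have hyy : 1 ≤ y := by linarith
    calc 2 * B = 2 * (((3 : ℝ) ^ (k + 1)) ^ 9 * (2 / κ') ^ 4) := by
          rw [hB]; ring
      _ ≤ Real.exp 1 * ((Real.exp (10 / 9 * y)) ^ 9 * (Real.exp (1 + y)) ^ 4) := by
          gcongr
      _ = Real.exp (1 + (9 * (10 / 9 * y) + 4 * (1 + y))) := by
          rw [← Real.exp_nat_mul, ← Real.exp_nat_mul, ← Real.exp_add, ← Real.exp_add]
          congr 1
      _ ≤ Real.exp (δ * D) := by
          apply Real.exp_le_exp.2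
          have h6 : 19 * y ≤ δ * D := by
            calc 19 * y ≤ (E' * δ) * y := mul_le_mul_of_nonneg_right hE' (by linarith)
              _ = δ * D := by rw [hDy]; ring
          linarith
  have hfin : 2 * B * Real.exp (-((lam + δ) * D)) ≤
      ‖NN x.length i1 (sq x fun y => H 0 y * H 1 y * H 2 y * H 3 y)
        (sq x' fun y => H 0 y * H 1 y * H 2 y * H 3 y) s'‖ := by
    have e1 : 2 * B * Real.exp (-((lam + δ) * D)) ≤ Real.exp (-(lam * D)) := by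
      calc 2 * B * Real.exp (-((lam + δ) * D)) ≤
            Real.exp (δ * D) * Real.exp (-((lam + δ) * D)) := by gcongr
        _ = Real.exp (-(lam * D)) := by
            rw [← Real.exp_add]; congr 1; ring
    refine e1.trans (hs3'.trans (le_of_eq ?_))
    congr 1
    refine NN_congr (fun i hi' => ?_) (fun i hi' => ?_) s'
    · rw [← hHx 0 i hi', ← hHx 1 i hi', ← hHx 2 i hi', ← hHx 3 i hi']
      rfl
    · rw [← hHx' 0 i hi', ← hHx' 1 i hi', ← hHx' 2 i hi', ← hHx' 3 i hi']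
      rfl
  obtain ⟨T, hT1, hT2, hT3⟩ := real_cls (fun z hz => hz.conj) hB0 hT hfin
  exact ⟨T, hT1, hT2, s', hs1', hs2', by rw [mul_one]; exact hT3⟩

/-- The step. -/
theorem goodQ_step {lam β Y V E K : ℝ} {S : ℕ} (h5 : StepQ lam β Y V E K S)
    (hV : 1 ≤ V) (hK : 1 ≤ K) {δ E' : ℝ} (hE : E ≤ E') (hE0 : 0 < E)
    (hE' : 19 ≤ E' * δ)
    {A m : ℝ} (hA : 0 ≤ A) (hm : 0 < m) {x x' : List Bool} {i1 : ℕ}
    (hl : x.length = x'.length)
    (hi : i1 ≤ x.length) (heq : ∀ τ, ∀ i < i1, sq x τ i = sq x' τ i)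
    {c : ℝ} (hc : 1 ≤ c) {k : ℕ} {κ κ' D : ℝ} (hκ' : 0 < κ')
    (hκκ : V * K ^ (2 * S) * κ' ≤ κ)
    (hκ1 : V * κ ≤ 1) (hY : Y * κ ≤ A * κ' + Real.sqrt (κ' / m))
    (hD : ((k : ℝ) + 1) * E' ≤ D) (hκl : Real.exp (-(D / E')) ≤ κ')
    (h : GoodQ A m β K S x x' i1 c k κ D) :
    GoodQ A m β K S x x' i1 (4 * c) (4 * k + 4) (100 * K ^ S * κ') ((lam + δ) * D) := by
  intro j hj
  have hKj : 0 < K ^ j := by positivity
  have hKS : 0 < K ^ S := by positivity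
  obtain ⟨w, hw⟩ : ∃ w : ℝ, w = K ^ S * κ' / K ^ j := ⟨_, rfl⟩
  have hjS : K ^ j ≤ K ^ S := pow_le_pow_right₀ hK hj
  have hκw : κ' ≤ w := by
    rw [hw, le_div_iff₀ hKj]
    calc κ' * K ^ j ≤ κ' * K ^ S := mul_le_mul_of_nonneg_left hjS hκ'.le
      _ = K ^ S * κ' := by ring
  have hw0 : 0 < w := lt_of_lt_of_le hκ' hκw
  have hwle : w ≤ K ^ S * κ' := by
    rw [hw]
    exact div_le_self (by positivity) (one_le_pow₀ hK)
  have h1 := goodQ_step_one h5 hV hK hE hE0 hE' hm hl hi heq hc hw0 (by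
    rw [le_div_iff₀ hKS]
    calc V * w * K ^ S ≤ V * (K ^ S * κ') * K ^ S := by gcongr
      _ = V * K ^ (2 * S) * κ' := by rw [two_mul, pow_add]; ring
      _ ≤ κ := hκκ) hκ1 (by
    refine hY.trans (add_le_add (mul_le_mul_of_nonneg_left hκw hA) ?_)
    exact Real.sqrt_le_sqrt (div_le_div_of_nonneg_right hκw hm.le)) hD (hκl.trans hκw) h
  have e : 100 * w = 100 * K ^ S * κ' / K ^ j := by rw [hw]; ring
  rw [e] at h1
  exact h1

end Vale.Agent.P321.H778
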