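import Vale.Agent.P321.H778.Cls

/-! # Amplification of the retention by the three lines theorem -/

namespace Vale.Agent.P321.H778

open Complex Finset Vale.Agent.P321.UB

/-- The shifted weight. -/
noncomputable def sh (l z : ℂ) : ℂ := 1 - 1 / (1 / (1 - z) + l)

/-- Facts on the weight `z` in the disc of retention `1 - q`. -/
theorem disc_facts {z : ℂ} {q : ℝ} (hz : ‖z‖ < 1) (hq : 0 < q) (hq1 : q ≤ 1 / 2)
    (hd : ‖z - q‖ ≤ 1 - q) : 1 - z ≠ 0 ∧ 1 / 2 ≤ ‖1 / (1 - z)‖ ∧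
      q ≤ 2 * (1 / (1 - z)).re - 1 ∧
      1 - ‖z‖ ^ 2 = (2 * (1 / (1 - z)).re - 1) / ‖1 / (1 - z)‖ ^ 2 := by
  have h1 : 1 - z ≠ 0 := by
    intro h
    have : z = 1 := by linear_combination -h
    rw [this, norm_one] at hz
    exact lt_irrefl _ hz
  have hpos : 0 < ‖1 - z‖ := norm_pos_iff.2 h1
  have hns : Complex.normSq (1 - z) = ‖1 - z‖ ^ 2 := (Complex.sq_norm _).symm
  have hre : (1 / (1 - z)).re = (1 - z.re) / ‖1 - z‖ ^ 2 := by
    rw [one_div, Complex.inv_re, hns]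
    simp
  have hnorm : ‖1 / (1 - z)‖ = 1 / ‖1 - z‖ := by rw [norm_div, norm_one]
  have hz2 : ‖z‖ ^ 2 = 1 - 2 * (1 - z.re) + ‖1 - z‖ ^ 2 := by
    rw [Complex.sq_norm, Complex.sq_norm, Complex.normSq_apply, Complex.normSq_apply]
    simp
    ring
  have hzq : ‖z - q‖ ^ 2 = (1 - q) ^ 2 - 2 * (1 - q) * (1 - z.re) + ‖1 - z‖ ^ 2 := by
    rw [Complex.sq_norm, Complex.sq_norm, Complex.normSq_apply, Complex.normSq_apply]
    simp
    ring
  refine ⟨h1, ?_, ?_, ?_⟩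
  · rw [hnorm]
    apply one_div_le_one_div_of_le hpos
    calc ‖1 - z‖ ≤ ‖(1 : ℂ)‖ + ‖z‖ := norm_sub_le _ _
      _ ≤ 2 := by rw [norm_one]; linarith
  · have h3 : ‖z - q‖ ^ 2 ≤ (1 - q) ^ 2 := pow_le_pow_left₀ (norm_nonneg _) hd 2
    have h4 : ‖1 - z‖ ^ 2 ≤ 2 * (1 - q) * (1 - z.re) := by linarith
    rw [hre]
    have h5 : 1 / (2 * (1 - q)) ≤ (1 - z.re) / ‖1 - z‖ ^ 2 := by
      rw [div_le_div_iff₀ (by linarith) (by positivity)]
      linarith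
    have h6 : (1 + q) / 2 ≤ 1 / (2 * (1 - q)) := by
      rw [div_le_div_iff₀ (by norm_num) (by linarith)]
      nlinarith
    linarith
  · rw [hre, hnorm, hz2]
    field_simp
    ring

/-- Bounds for the shifted weights. -/
theorem sh_facts {z l : ℂ} {q : ℝ} (hz : ‖z‖ < 1) (hq : 0 < q) (hq1 : q ≤ 1 / 2)
    (hd : ‖z - q‖ ≤ 1 - q) (hl : -(q / 4) ≤ l.re) : 1 / (1 - z) + l ≠ 0 ∧ ‖sh l z‖ < 1 ∧
      1 / (1 - ‖sh l z‖) ≤ 100 * ‖l + 2‖ ^ 2 * (1 / (1 - ‖z‖)) := by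
  obtain ⟨h1, h2, h3, h4⟩ := disc_facts hz hq hq1 hd
  set w := 1 / (1 - z) with hw
  have hwre : (w + l).re = w.re + l.re := by simp
  have hre0 : (2 * w.re - 1) / 2 ≤ 2 * (w + l).re - 1 := by rw [hwre]; linarith
  have hre1 : 0 < (w + l).re := by rw [hwre]; linarith
  have hne : w + l ≠ 0 := by
    intro h
    rw [h] at hre1
    simp at hre1
  have hpos : 0 < ‖w + l‖ := norm_pos_iff.2 hne
  have hw0 : 0 < ‖w‖ := by linarith
  have hsh : ‖sh l z‖ ^ 2 = 1 - (2 * (w + l).re - 1) / ‖w + l‖ ^ 2 := by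
    have e1 : sh l z = (w + l - 1) / (w + l) := by
      unfold sh
      rw [← hw]
      field_simp
    rw [e1, norm_div, div_pow]
    have e2 : ‖w + l - 1‖ ^ 2 = ‖w + l‖ ^ 2 - 2 * (w + l).re + 1 := by
      rw [Complex.sq_norm, Complex.sq_norm, Complex.normSq_apply, Complex.normSq_apply]
      simp
      ring
    rw [e2]
    field_simp
    ring
  -- the norm of `w + l`
  have hl2 : 7 / 4 ≤ ‖l + 2‖ := by
    have : (l + 2).re ≤ ‖l + 2‖ := Complex.re_le_norm _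
    have e : (l + 2).re = l.re + 2 := by simp
    linarith
  have hl1 : 1 + 2 * ‖l‖ ≤ 5 * ‖l + 2‖ := by
    have : ‖l‖ ≤ ‖l + 2‖ + 2 := by
      calc ‖l‖ = ‖(l + 2) - 2‖ := by congr 1; ring
        _ ≤ ‖l + 2‖ + ‖(2 : ℂ)‖ := norm_sub_le _ _
        _ = ‖l + 2‖ + 2 := by norm_num
    linarith
  have hwl : ‖w + l‖ ≤ ‖w‖ * (5 * ‖l + 2‖) := by
    calc ‖w + l‖ ≤ ‖w‖ + ‖l‖ := norm_add_le _ _
      _ ≤ ‖w‖ * (1 + 2 * ‖l‖) := by nlinarith [norm_nonneg l]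
      _ ≤ ‖w‖ * (5 * ‖l + 2‖) := by gcongr
  have hX : 0 ≤ 5 * ‖l + 2‖ := by positivity
  -- the main estimate
  have hz2 : 0 < 1 - ‖z‖ ^ 2 := by nlinarith [norm_nonneg z]
  have hmain : (1 - ‖z‖ ^ 2) / (2 * (5 * ‖l + 2‖) ^ 2) ≤ 1 - ‖sh l z‖ ^ 2 := by
    rw [hsh, h4]
    have e1 : 1 - (1 - (2 * (w + l).re - 1) / ‖w + l‖ ^ 2) =
        (2 * (w + l).re - 1) / ‖w + l‖ ^ 2 := by ring
    rw [e1, div_div, div_le_div_iff₀ (by positivity) (by positivity)]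
    have e2 : ‖w + l‖ ^ 2 ≤ ‖w‖ ^ 2 * (5 * ‖l + 2‖) ^ 2 := by
      rw [← mul_pow]
      exact pow_le_pow_left₀ (norm_nonneg _) hwl 2
    calc (2 * w.re - 1) * ‖w + l‖ ^ 2 ≤ (2 * w.re - 1) * (‖w‖ ^ 2 * (5 * ‖l + 2‖) ^ 2) := by
          apply mul_le_mul_of_nonneg_left e2
          linarith
      _ = ((2 * w.re - 1) / 2) * (‖w‖ ^ 2 * (2 * (5 * ‖l + 2‖) ^ 2)) := by ring
      _ ≤ (2 * (w + l).re - 1) * (‖w‖ ^ 2 * (2 * (5 * ‖l + 2‖) ^ 2)) := by
          apply mul_le_mul_of_nonneg_right hre0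
          positivity
  have hd0 : 0 < (1 - ‖z‖ ^ 2) / (2 * (5 * ‖l + 2‖) ^ 2) := by positivity
  have hlt : ‖sh l z‖ < 1 := by
    have : ‖sh l z‖ ^ 2 < 1 := by linarith
    nlinarith [norm_nonneg (sh l z)]
  refine ⟨hne, hlt, ?_⟩
  have hfin : (1 - ‖z‖) / (4 * (5 * ‖l + 2‖) ^ 2) ≤ 1 - ‖sh l z‖ := by
    have e1 : 1 - ‖sh l z‖ ^ 2 ≤ 2 * (1 - ‖sh l z‖) := by nlinarith [norm_nonneg (sh l z)]
    have e2 : (1 - ‖z‖) / (2 * (5 * ‖l + 2‖) ^ 2) ≤ (1 - ‖z‖ ^ 2) / (2 * (5 * ‖l + 2‖) ^ 2) := by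
      apply div_le_div_of_nonneg_right _ (by positivity)
      nlinarith [norm_nonneg z]
    have e3 : (1 - ‖z‖) / (4 * (5 * ‖l + 2‖) ^ 2) = (1 - ‖z‖) / (2 * (5 * ‖l + 2‖) ^ 2) / 2 := by
      rw [div_div]; ring
    rw [e3]
    linarith
  have h1z : 0 < 1 - ‖z‖ := by linarith
  calc 1 / (1 - ‖sh l z‖) ≤ 1 / ((1 - ‖z‖) / (4 * (5 * ‖l + 2‖) ^ 2)) :=
        one_div_le_one_div_of_le (by positivity) hfin
    _ = 100 * ‖l + 2‖ ^ 2 * (1 / (1 - ‖z‖)) := by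
      field_simp
      ring

/-- Bounds for the shifted weights on the line of retention `p`. -/
theorem sh_right {z l : ℂ} {q p : ℝ} (hz : ‖z‖ < 1) (hq : 0 < q) (hq1 : q ≤ 1 / 2)
    (hd : ‖z - q‖ ≤ 1 - q) (hp : 0 < p) (hl : l.re = 1 / (2 * p)) :
    ‖(sh l z - 1 + p) / p‖ < 1 ∧
      1 / (p * (1 - ‖(sh l z - 1 + p) / p‖)) ≤ 100 * ‖l + 2‖ ^ 2 * (1 / (1 - ‖z‖)) := by
  have hl0 : 0 < l.re := by rw [hl]; positivity
  obtain ⟨hne, -, -⟩ := sh_facts hz hq hq1 hd (l := l) (by linarith)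
  obtain ⟨h1, h2, h3, h4⟩ := disc_facts hz hq hq1 hd
  set w := 1 / (1 - z) with hw
  have hwre : (w + l).re = w.re + l.re := by simp
  have hpC : (p : ℂ) ≠ 0 := by exact_mod_cast hp.ne'
  have hpos : 0 < ‖w + l‖ := norm_pos_iff.2 hne
  have hw0 : 0 < ‖w‖ := by linarith
  have hl2 : 7 / 4 ≤ ‖l + 2‖ := by
    have : (l + 2).re ≤ ‖l + 2‖ := Complex.re_le_norm _
    have e : (l + 2).re = l.re + 2 := by simp
    linarith
  have hl1 : 1 + 2 * ‖l‖ ≤ 5 * ‖l + 2‖ := by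
    have : ‖l‖ ≤ ‖l + 2‖ + 2 := by
      calc ‖l‖ = ‖(l + 2) - 2‖ := by congr 1; ring
        _ ≤ ‖l + 2‖ + ‖(2 : ℂ)‖ := norm_sub_le _ _
        _ = ‖l + 2‖ + 2 := by norm_num
    linarith
  have hwl : ‖w + l‖ ≤ ‖w‖ * (5 * ‖l + 2‖) := by
    calc ‖w + l‖ ≤ ‖w‖ + ‖l‖ := norm_add_le _ _
      _ ≤ ‖w‖ * (1 + 2 * ‖l‖) := by nlinarith [norm_nonneg l]
      _ ≤ ‖w‖ * (5 * ‖l + 2‖) := by gcongr
  set v := (sh l z - 1 + p) / p with hv
  have hsq : ‖v‖ ^ 2 = 1 - 2 * w.re / (p * ‖w + l‖ ^ 2) := by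
    have e1 : v = (p * (w + l) - 1) / (p * (w + l)) := by
      rw [hv]
      unfold sh
      rw [← hw]
      field_simp
      ring
    have e2 : ‖(p : ℂ) * (w + l) - 1‖ ^ 2 = p ^ 2 * ‖w + l‖ ^ 2 - 2 * p * (w + l).re + 1 := by
      rw [Complex.sq_norm, Complex.sq_norm, Complex.normSq_apply, Complex.normSq_apply]
      simp
      ring
    rw [e1, norm_div, div_pow, e2, norm_mul, norm_ofReal_nonneg hp.le, mul_pow, hwre, hl]
    field_simp
    ring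
  have hz2 : 0 < 1 - ‖z‖ ^ 2 := by nlinarith [norm_nonneg z]
  have hmain : (1 - ‖z‖ ^ 2) / (p * (5 * ‖l + 2‖) ^ 2) ≤ 1 - ‖v‖ ^ 2 := by
    rw [hsq, h4]
    have e1 : 1 - (1 - 2 * w.re / (p * ‖w + l‖ ^ 2)) = 2 * w.re / (p * ‖w + l‖ ^ 2) := by ring
    rw [e1, div_div, div_le_div_iff₀ (by positivity) (by positivity)]
    have e2 : ‖w + l‖ ^ 2 ≤ ‖w‖ ^ 2 * (5 * ‖l + 2‖) ^ 2 := by
      rw [← mul_pow]
      exact pow_le_pow_left₀ (norm_nonneg _) hwl 2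
    calc (2 * w.re - 1) * (p * ‖w + l‖ ^ 2) ≤
          (2 * w.re - 1) * (p * (‖w‖ ^ 2 * (5 * ‖l + 2‖) ^ 2)) := by
          apply mul_le_mul_of_nonneg_left _ (by linarith)
          exact mul_le_mul_of_nonneg_left e2 hp.le
      _ ≤ (2 * w.re) * (p * (‖w‖ ^ 2 * (5 * ‖l + 2‖) ^ 2)) := by
          apply mul_le_mul_of_nonneg_right (by linarith)
          positivity
      _ = 2 * w.re * (‖w‖ ^ 2 * (p * (5 * ‖l + 2‖) ^ 2)) := by ring
  have hd0 : 0 < (1 - ‖z‖ ^ 2) / (p * (5 * ‖l + 2‖) ^ 2) := by positivity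
  have hlt : ‖v‖ < 1 := by
    have : ‖v‖ ^ 2 < 1 := by linarith
    nlinarith [norm_nonneg v]
  refine ⟨hlt, ?_⟩
  have h1z : 0 < 1 - ‖z‖ := by linarith
  have hfin : (1 - ‖z‖) / (4 * (5 * ‖l + 2‖) ^ 2) ≤ p * (1 - ‖v‖) := by
    have e1 : 1 - ‖v‖ ^ 2 ≤ 2 * (1 - ‖v‖) := by nlinarith [norm_nonneg v]
    have e2 : (1 - ‖z‖) / (p * (5 * ‖l + 2‖) ^ 2) ≤ (1 - ‖z‖ ^ 2) / (p * (5 * ‖l + 2‖) ^ 2) := by
      apply div_le_div_of_nonneg_right _ (by positivity)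
      nlinarith [norm_nonneg z]
    have e3 : (1 - ‖z‖) / (p * (5 * ‖l + 2‖) ^ 2) ≤ 2 * (1 - ‖v‖) := by linarith
    have e4 : (1 - ‖z‖) / (4 * (5 * ‖l + 2‖) ^ 2) =
        p * ((1 - ‖z‖) / (p * (5 * ‖l + 2‖) ^ 2)) / 4 := by
      field_simp
    have e5 : 0 ≤ p * (1 - ‖v‖) := mul_nonneg hp.le (by linarith)
    rw [e4]
    have e6 : p * ((1 - ‖z‖) / (p * (5 * ‖l + 2‖) ^ 2)) ≤ p * (2 * (1 - ‖v‖)) :=
      mul_le_mul_of_nonneg_left e3 hp.le
    linarith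
  calc 1 / (p * (1 - ‖v‖)) ≤ 1 / ((1 - ‖z‖) / (4 * (5 * ‖l + 2‖) ^ 2)) :=
        one_div_le_one_div_of_le (by positivity) hfin
    _ = 100 * ‖l + 2‖ ^ 2 * (1 / (1 - ‖z‖)) := by
      field_simp
      ring

/-- Shift all weights of a monomial. -/
noncomputable def shZ (l : ℂ) (Z : List Node) : List Node := Z.map fun v => (sh l v.1, v.2)

/-- Shift all weights of a combination. -/
noncomputable def shL (l : ℂ) (L : Comb) : Comb := L.map fun a => (a.1, shZ l a.2)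

theorem sh_zero {z : ℂ} (h : 1 - z ≠ 0) : sh 0 z = z := by
  unfold sh
  rw [add_zero, one_div_one_div]
  ring

theorem shZ_zero {Z : List Node} (h : ∀ v ∈ Z, 1 - v.1 ≠ 0) : shZ 0 Z = Z := by
  unfold shZ
  have : Z.map (fun v => (sh 0 v.1, v.2)) = Z.map id := by
    apply List.map_congr_left
    intro v hv
    rw [sh_zero (h v hv)]
    rfl
  rw [this, List.map_id]

theorem shL_zero {L : Comb} (h : ∀ a ∈ L, ∀ v ∈ a.2, 1 - v.1 ≠ 0) : shL 0 L = L := by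
  unfold shL
  have : L.map (fun a => (a.1, shZ 0 a.2)) = L.map id := by
    apply List.map_congr_left
    intro a ha
    rw [shZ_zero (h a ha)]
    rfl
  rw [this, List.map_id]

/-- The disc condition for all weights. -/
def InDisc (q : ℝ) (z : ℂ) : Prop := ‖z‖ < 1 ∧ ‖z - q‖ ≤ 1 - q

theorem nu_shZ_le {q : ℝ} (hq : 0 < q) (hq1 : q ≤ 1 / 2) {l : ℂ} (hl : -(q / 4) ≤ l.re)
    {Z : List Node} (hZ : ∀ v ∈ Z, InDisc q v.1) :
    (∀ v ∈ shZ l Z, ‖v.1‖ < 1) ∧ nu (shZ l Z) ≤ (100 * ‖l + 2‖ ^ 2) ^ Z.length * nu Z := by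
  induction Z with
  | nil => exact ⟨fun v hv => by simp [shZ] at hv, by simp [shZ, nu]⟩
  | cons v Z ih =>
    obtain ⟨i1, i2⟩ := ih (fun v hv => hZ v (List.mem_cons_of_mem _ hv))
    obtain ⟨j1, j2⟩ := hZ v List.mem_cons_self
    obtain ⟨k1, k2, k3⟩ := sh_facts j1 hq hq1 j2 hl
    have p1 := nu_pos i1
    have p2 := nu_pos (fun v hv => (hZ v (List.mem_cons_of_mem _ hv)).1)
    refine ⟨fun u hu => ?_, ?_⟩
    · change u ∈ (sh l v.1, v.2) :: shZ l Z at hu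
      rcases List.mem_cons.1 hu with rfl | hu
      · exact k2
      · exact i1 u hu
    · change nu (shZ l Z) * (1 / (1 - ‖sh l v.1‖)) ≤
        (100 * ‖l + 2‖ ^ 2) ^ (Z.length + 1) * (nu Z * (1 / (1 - ‖v.1‖)))
      calc nu (shZ l Z) * (1 / (1 - ‖sh l v.1‖)) ≤
            ((100 * ‖l + 2‖ ^ 2) ^ Z.length * nu Z) *
              (100 * ‖l + 2‖ ^ 2 * (1 / (1 - ‖v.1‖))) :=
            mul_le_mul i2 k3 (by
              have : 0 < 1 - ‖sh l v.1‖ := by linarith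
              positivity) (by positivity)
        _ = _ := by rw [pow_succ]; ring

theorem one_le_hundred {q : ℝ} (hq1 : q ≤ 1 / 2) {l : ℂ} (hl : -(q / 4) ≤ l.re) :
    1 ≤ 100 * ‖l + 2‖ ^ 2 := by
  have h : (l + 2).re ≤ ‖l + 2‖ := Complex.re_le_norm _
  have e : (l + 2).re = l.re + 2 := by simp
  nlinarith

theorem nuL_shL_le {q : ℝ} (hq : 0 < q) (hq1 : q ≤ 1 / 2) {l : ℂ} (hl : -(q / 4) ≤ l.re)
    {L : Comb} {k : ℕ} (hL : Adm (InDisc q) k L) :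
    (∀ a ∈ shL l L, ∀ v ∈ a.2, ‖v.1‖ < 1) ∧
      nuL (shL l L) ≤ (100 * ‖l + 2‖ ^ 2) ^ k * nuL L := by
  have hone := one_le_hundred hq1 hl
  induction L with
  | nil => exact ⟨fun a ha => by simp [shL] at ha, by simp [shL, nuL]⟩
  | cons a L ih =>
    obtain ⟨i1, i2⟩ := ih (fun a ha => hL a (List.mem_cons_of_mem _ ha))
    obtain ⟨j1, j2⟩ := hL a List.mem_cons_self
    obtain ⟨k1, k2⟩ := nu_shZ_le hq hq1 hl j2
    have p2 := nu_pos (fun v hv => (j2 v hv).1)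
    refine ⟨fun u hu => ?_, ?_⟩
    · change u ∈ (a.1, shZ l a.2) :: shL l L at hu
      rcases List.mem_cons.1 hu with rfl | hu
      · exact k1
      · exact i1 u hu
    · change ‖a.1‖ * nu (shZ l a.2) + nuL (shL l L) ≤
        (100 * ‖l + 2‖ ^ 2) ^ k * (‖a.1‖ * nu a.2 + nuL L)
      have h1 : nu (shZ l a.2) ≤ (100 * ‖l + 2‖ ^ 2) ^ k * nu a.2 := by
        refine k2.trans ?_
        exact mul_le_mul_of_nonneg_right (pow_le_pow_right₀ hone j1) p2.le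
      calc ‖a.1‖ * nu (shZ l a.2) + nuL (shL l L) ≤
            ‖a.1‖ * ((100 * ‖l + 2‖ ^ 2) ^ k * nu a.2) + (100 * ‖l + 2‖ ^ 2) ^ k * nuL L :=
            add_le_add (mul_le_mul_of_nonneg_left h1 (norm_nonneg _)) i2
        _ = _ := by ring

/-- The function of traces behind a combination. -/
noncomputable def evP (r : ℝ) : Comb → List Bool → ℂ
  | [] => fun _ => 0
  | a :: L => fun u => a.1 * OP r a.2 u + 1 * evP r L u

theorem FE_evP {r : ℝ} (hr : 0 < r) (L : Comb) (y : List Bool) : FE r (evP r L) y = ev L y := by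
  induction L with
  | nil => exact FE_const r 0 y
  | cons a L ih =>
    change FE r (fun u => a.1 * OP r a.2 u + 1 * evP r L u) y = a.1 * O a.2 y + ev L y
    rw [FE_lin, FE_OP hr, ih, one_mul]

theorem OP_shZ_le {q p : ℝ} (hq : 0 < q) (hq1 : q ≤ 1 / 2) (hp : 0 < p) {l : ℂ}
    (hl : l.re = 1 / (2 * p)) {Z : List Node} (hZ : ∀ v ∈ Z, InDisc q v.1) (y : List Bool) :
    ‖OP p (shZ l Z) y‖ ≤ (100 * ‖l + 2‖ ^ 2) ^ Z.length * nu Z := by
  induction Z generalizing y with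
  | nil => simp [shZ, OP, nu]
  | cons v Z ih =>
    have ih' := ih (fun v hv => hZ v (List.mem_cons_of_mem _ hv))
    obtain ⟨j1, j2⟩ := hZ v List.mem_cons_self
    obtain ⟨k1, k2⟩ := sh_right j1 hq hq1 j2 hp hl
    have p2 := nu_pos (fun v hv => (hZ v (List.mem_cons_of_mem _ hv)).1)
    change ‖ndP p (sh l v.1) v.2 (OP p (shZ l Z)) y‖ ≤
      (100 * ‖l + 2‖ ^ 2) ^ (Z.length + 1) * (nu Z * (1 / (1 - ‖v.1‖)))
    calc _ ≤ ((100 * ‖l + 2‖ ^ 2) ^ Z.length * nu Z) *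
          (1 / (p * (1 - ‖(sh l v.1 - 1 + p) / p‖))) :=
          ndP_norm_le hp k1 v.2 (n := y.length) (fun u _ => ih' u) y le_rfl
      _ ≤ ((100 * ‖l + 2‖ ^ 2) ^ Z.length * nu Z) * (100 * ‖l + 2‖ ^ 2 * (1 / (1 - ‖v.1‖))) := by
          gcongr
      _ = _ := by rw [pow_succ]; ring

theorem evP_shL_le {q p : ℝ} (hq : 0 < q) (hq1 : q ≤ 1 / 2) (hp : 0 < p) {l : ℂ}
    (hl : l.re = 1 / (2 * p)) {L : Comb} {k : ℕ} (hL : Adm (InDisc q) k L) (y : List Bool) :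
    ‖evP p (shL l L) y‖ ≤ (100 * ‖l + 2‖ ^ 2) ^ k * nuL L := by
  have hl0 : 0 < l.re := by rw [hl]; positivity
  have hone : 1 ≤ 100 * ‖l + 2‖ ^ 2 := one_le_hundred hq1 (l := l) (by linarith)
  induction L with
  | nil => simp [shL, evP, nuL]
  | cons a L ih =>
    have i2 := ih (fun a ha => hL a (List.mem_cons_of_mem _ ha))
    obtain ⟨j1, j2⟩ := hL a List.mem_cons_self
    have k2 := OP_shZ_le hq hq1 hp hl j2 y
    have p2 := nu_pos (fun v hv => (j2 v hv).1)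
    change ‖a.1 * OP p (shZ l a.2) y + 1 * evP p (shL l L) y‖ ≤
      (100 * ‖l + 2‖ ^ 2) ^ k * (‖a.1‖ * nu a.2 + nuL L)
    have h1 : ‖OP p (shZ l a.2) y‖ ≤ (100 * ‖l + 2‖ ^ 2) ^ k * nu a.2 := by
      refine k2.trans ?_
      exact mul_le_mul_of_nonneg_right (pow_le_pow_right₀ hone j1) p2.le
    calc ‖a.1 * OP p (shZ l a.2) y + 1 * evP p (shL l L) y‖ ≤
          ‖a.1 * OP p (shZ l a.2) y‖ + ‖1 * evP p (shL l L) y‖ := norm_add_le _ _
      _ ≤ ‖a.1‖ * ((100 * ‖l + 2‖ ^ 2) ^ k * nu a.2) + (100 * ‖l + 2‖ ^ 2) ^ k * nuL L := by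
          rw [norm_mul, one_mul]
          gcongr
      _ = _ := by ring

/-- On the line of retention `p` the shifted combination is a test. -/
theorem isTest_shL {q p : ℝ} (hq : 0 < q) (hq1 : q ≤ 1 / 2) (hp : 0 < p) {l : ℂ}
    (hl : l.re = 1 / (2 * p)) {L : Comb} {k : ℕ} (hL : Adm (InDisc q) k L) (n : ℕ) :
    IsTest n p ((100 * ‖l + 2‖ ^ 2) ^ k * nuL L) (ev (shL l L)) :=
  ⟨evP p (shL l L), fun u _ => evP_shL_le hq hq1 hp hl hL u, fun y _ => FE_evP hp _ y⟩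

theorem FE_one (Φ : List Bool → ℂ) (y : List Bool) : FE 1 Φ y = Φ y := by
  induction y generalizing Φ with
  | nil => rfl
  | cons b y ih =>
    rw [FE_cons, ih (fun u => Φ (b :: u))]
    simp

theorem isTest_one_iff {n : ℕ} {B : ℝ} {τ : List Bool → ℂ}
    (h : ∀ y : List Bool, y.length ≤ n → ‖τ y‖ ≤ B) : IsTest n 1 B τ :=
  ⟨τ, h, fun y _ => FE_one τ y⟩

theorem norm_Sz_le {n : ℕ} {B C : ℝ} {z : ℂ} (hB : 0 ≤ B) (hC : 1 ≤ C) (hz : ‖z‖ ^ n ≤ C)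
    {τ : List Bool → ℂ} (h : ∀ y : List Bool, y.length ≤ n → ‖τ y‖ ≤ B) (y : List Bool)
    (hy : y.length ≤ n) : ‖Sz z τ y‖ ≤ C * (n * B) := by
  have h1 : ‖(z - 1 + ((1 : ℝ) : ℂ)) / ((1 : ℝ) : ℂ)‖ ^ n ≤ C := by
    simpa using hz
  have h2 := IsTest.sz_near (r := 1) one_pos hB hC h1 (isTest_one_iff h)
  have h3 := h2.norm_le zero_le_one le_rfl y hy
  simpa using h3

/-! ## Holomorphy -/

theorem diff_nd {U : Set ℂ} {f : ℂ → ℂ} (hf : DifferentiableOn ℂ f U) (c : Bool)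
    {τ : ℂ → List Bool → ℂ} (hτ : ∀ y, DifferentiableOn ℂ (fun l => τ l y) U) (y : List Bool) :
    DifferentiableOn ℂ (fun l => nd (f l) c (τ l) y) U := by
  induction y with
  | nil => exact differentiableOn_const 0
  | cons b y ih =>
    change DifferentiableOn ℂ (fun l => f l * nd (f l) c (τ l) y + rd c b * τ l y) U
    exact (hf.mul ih).add ((hτ y).const_mul _)

theorem diff_O {U : Set ℂ} {Z : List Node}
    (h : ∀ v ∈ Z, ∀ l ∈ U, 1 / (1 - v.1) + l ≠ 0) (y : List Bool) :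
    DifferentiableOn ℂ (fun l => O (shZ l Z) y) U := by
  induction Z generalizing y with
  | nil => exact differentiableOn_const 1
  | cons v Z ih =>
    have ih' := ih (fun v hv => h v (List.mem_cons_of_mem _ hv))
    have hf : DifferentiableOn ℂ (fun l => sh l v.1) U := by
      unfold sh
      refine (differentiableOn_const 1).sub ?_
      refine (differentiableOn_const 1).div ?_ (h v List.mem_cons_self)
      exact (differentiableOn_const _).add differentiableOn_id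
    exact diff_nd hf v.2 ih' y

theorem diff_ev {U : Set ℂ} {L : Comb}
    (h : ∀ a ∈ L, ∀ v ∈ a.2, ∀ l ∈ U, 1 / (1 - v.1) + l ≠ 0) (y : List Bool) :
    DifferentiableOn ℂ (fun l => ev (shL l L) y) U := by
  induction L with
  | nil => exact differentiableOn_const 0
  | cons a L ih =>
    have ih' := ih (fun a ha => h a (List.mem_cons_of_mem _ ha))
    change DifferentiableOn ℂ (fun l => a.1 * O (shZ l a.2) y + ev (shL l L) y) U
    exact ((diff_O (h a List.mem_cons_self) y).const_mul _).add ih'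

theorem diff_Sz {U : Set ℂ} (z : ℂ) {τ : ℂ → List Bool → ℂ}
    (hτ : ∀ y, DifferentiableOn ℂ (fun l => τ l y) U) (y : List Bool) :
    DifferentiableOn ℂ (fun l => Sz z (τ l) y) U := by
  have := diff_nd (differentiableOn_const z : DifferentiableOn ℂ (fun _ => z) U) false hτ y
  simpa only [Sz_eq_nd] using this

/-- Amplification of the retention. -/
theorem amplify {n : ℕ} {p q : ℝ} (hp : 0 < p) (hq : 0 < q) (hq1 : q ≤ 1 / 2)
    {x x' : List Bool} (hx : x.length ≤ n) (hx' : x'.length ≤ n) {k : ℕ} {B : ℝ}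
    {τ : List Bool → ℂ} (h : Cls (InDisc q) k B τ) {z : ℂ} {C C' : ℝ} (hC : 1 ≤ C) (hC' : 1 ≤ C')
    (hz : ‖z‖ ^ n ≤ C) (hz' : ‖(z - 1 + p) / p‖ ^ n ≤ C') {G : ℝ} (hG : 0 ≤ G)
    (hT : ∀ (B' : ℝ) (σ : List Bool → ℂ), 0 ≤ B' → IsTest n p B' σ → ‖σ x - σ x'‖ ≤ B' * G) :
    ‖Sz z τ x - Sz z τ x'‖ ≤ 400 ^ k * (2 * C * n * B) *
      (C' / p * G) ^ ((q / 4) / (1 / (2 * p) + q / 4)) := by
  obtain ⟨L, hL1, hL2, hL3⟩ := h
  have hτ : τ = ev L := funext hL3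
  subst hτ
  have hB0 : 0 ≤ nuL L := nuL_nonneg (fun a ha v hv => ((hL1 a ha).2 v hv).1)
  have hn0 : (0 : ℝ) ≤ n := Nat.cast_nonneg n
  set U : Set ℂ := {l : ℂ | -(q / 4) - q / 8 < l.re} with hU
  -- the function
  set H : ℂ → ℂ := fun l => Sz z (ev (shL l L)) x - Sz z (ev (shL l L)) x' with hH
  set g : ℂ → ℂ := fun l => H l / (l + 2) ^ (2 * k) with hg
  have hne : ∀ a ∈ L, ∀ v ∈ a.2, ∀ l ∈ U, 1 / (1 - v.1) + l ≠ 0 := by
    intro a ha v hv l hl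
    obtain ⟨j1, j2⟩ := (hL1 a ha).2 v hv
    obtain ⟨h1, h2, h3, h4⟩ := disc_facts j1 hq hq1 j2
    intro h0
    have e1 : (1 / (1 - v.1) + l).re = (1 / (1 - v.1)).re + l.re := by simp
    rw [h0] at e1
    simp only [zero_re] at e1
    have hl' : -(q / 4) - q / 8 < l.re := hl
    linarith
  have hHd : DifferentiableOn ℂ H U :=
    (diff_Sz z (fun y => diff_ev hne y) x).sub (diff_Sz z (fun y => diff_ev hne y) x')
  have hl2 : ∀ l ∈ U, l + 2 ≠ 0 := by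
    intro l hl h0
    have e1 : (l + 2).re = l.re + 2 := by simp
    rw [h0] at e1
    simp only [zero_re] at e1
    have hl' : -(q / 4) - q / 8 < l.re := hl
    linarith
  have hgd : DifferentiableOn ℂ g U := by
    refine hHd.div ?_ (fun l hl => pow_ne_zero _ (hl2 l hl))
    exact (differentiableOn_id.add (differentiableOn_const 2)).pow _
  set M : ℝ := 2 * C * n * nuL L * 100 ^ k with hM
  have hM0 : 0 ≤ M := by positivity
  have hpow : ∀ l : ℂ, -(q / 4) ≤ l.re → ∀ S : ℝ, ‖H l‖ ≤ S * (100 * ‖l + 2‖ ^ 2) ^ k →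
      ‖g l‖ ≤ S * 100 ^ k := by
    intro l hl S hS
    have hpos : 0 < ‖l + 2‖ := norm_pos_iff.2 (hl2 l (by
      change -(q / 4) - q / 8 < l.re; linarith))
    rw [hg]
    beta_reduce
    rw [norm_div, norm_pow, div_le_iff₀ (by positivity)]
    refine hS.trans (le_of_eq ?_)
    rw [mul_pow, ← pow_mul]
    ring
  have hleft : ∀ l : ℂ, -(q / 4) ≤ l.re → ‖g l‖ ≤ M := by
    intro l hl
    obtain ⟨i1, i2⟩ := nuL_shL_le hq hq1 hl hL1
    have h1 : ∀ y : List Bool, y.length ≤ n → ‖ev (shL l L) y‖ ≤ nuL (shL l L) :=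
      fun y _ => ev_norm_le i1 y
    have h0 : 0 ≤ nuL (shL l L) := nuL_nonneg i1
    have h2 := norm_Sz_le h0 hC hz h1 x hx
    have h3 := norm_Sz_le h0 hC hz h1 x' hx'
    refine hpow l hl (2 * C * n * nuL L) ?_
    calc ‖H l‖ ≤ ‖Sz z (ev (shL l L)) x‖ + ‖Sz z (ev (shL l L)) x'‖ := norm_sub_le _ _
      _ ≤ 2 * C * n * nuL (shL l L) := by linarith
      _ ≤ 2 * C * n * ((100 * ‖l + 2‖ ^ 2) ^ k * nuL L) := by gcongr
      _ = _ := by ring
  have hright : ∀ l : ℂ, l.re = 1 / (2 * p) → ‖g l‖ ≤ M * (C' / p * G) := by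
    intro l hl
    have hl0 : 0 < l.re := by rw [hl]; positivity
    have h1 := isTest_shL hq hq1 hp hl hL1 n
    have h2 := IsTest.sz_near hp (by positivity) hC' hz' h1
    have h3 := hT _ _ (by positivity) h2
    have h4 := hpow l (by linarith) (C' * n / p * nuL L * G) (by
      refine h3.trans (le_of_eq ?_)
      ring)
    refine h4.trans ?_
    rw [hM]
    have e1 : 0 ≤ C' * n / p * nuL L * G * 100 ^ k := by positivity
    have e2 : C' * n / p * nuL L * G * 100 ^ k ≤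
        (2 * C) * (C' * n / p * nuL L * G * 100 ^ k) :=
      le_mul_of_one_le_left e1 (by linarith)
    refine e2.trans (le_of_eq ?_)
    ring
  have hul : -(q / 4) < 1 / (2 * p) := by
    have : 0 < 1 / (2 * p) := by positivity
    linarith
  have hsub : Complex.HadamardThreeLines.verticalClosedStrip (-(q / 4)) (1 / (2 * p)) ⊆ U := by
    intro l hl
    have : -(q / 4) ≤ l.re := hl.1
    change -(q / 4) - q / 8 < l.re
    linarith
  have hclosure : closure (Complex.HadamardThreeLines.verticalStrip (-(q / 4)) (1 / (2 * p))) ⊆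
      Complex.HadamardThreeLines.verticalClosedStrip (-(q / 4)) (1 / (2 * p)) := by
    apply closure_minimal
    · intro l hl
      exact ⟨hl.1.le, hl.2.le⟩
    · exact isClosed_Icc.preimage Complex.continuous_re
  have hdc : DiffContOnCl ℂ g
      (Complex.HadamardThreeLines.verticalStrip (-(q / 4)) (1 / (2 * p))) := by
    refine ⟨hgd.mono ?_, (hgd.continuousOn).mono (hclosure.trans hsub)⟩
    exact (subset_closure.trans hclosure).trans hsub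
  have hbdd : BddAbove ((norm ∘ g) ''
      Complex.HadamardThreeLines.verticalClosedStrip (-(q / 4)) (1 / (2 * p))) := by
    refine ⟨M, ?_⟩
    rintro _ ⟨l, hl, rfl⟩
    exact hleft l hl.1
  have hmem : (0 : ℂ) ∈ Complex.HadamardThreeLines.verticalClosedStrip (-(q / 4))
      (1 / (2 * p)) := by
    refine ⟨?_, ?_⟩
    · change -(q / 4) ≤ (0 : ℂ).re
      simp only [zero_re]; linarith
    · change (0 : ℂ).re ≤ 1 / (2 * p)
      simp only [zero_re]; positivity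
  have h3l := Complex.HadamardThreeLines.norm_le_interp_of_mem_verticalClosedStrip' hul hmem hdc
    hbdd (fun l hl => hleft l (by
      have : l.re = -(q / 4) := hl
      linarith)) (fun l hl => hright l hl)
  set t : ℝ := (q / 4) / (1 / (2 * p) + q / 4) with ht
  have ht0 : 0 < t := by positivity
  have ht1 : t < 1 := by
    rw [ht, div_lt_one (by positivity)]
    have : 0 < 1 / (2 * p) := by positivity
    linarith
  have et : ((0 : ℂ).re - -(q / 4)) / (1 / (2 * p) - -(q / 4)) = t := by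
    rw [ht]; simp
  rw [et] at h3l
  have hG2 : 0 ≤ C' / p * G := by positivity
  have e1 : M ^ (1 - t) * (M * (C' / p * G)) ^ t = M * (C' / p * G) ^ t := by
    rw [Real.mul_rpow hM0 hG2, ← mul_assoc, ← Real.rpow_add' hM0 (by simp)]
    rw [sub_add_cancel, Real.rpow_one]
  rw [e1] at h3l
  -- at zero
  have h0 : H 0 = Sz z (ev L) x - Sz z (ev L) x' := by
    rw [hH]
    beta_reduce
    rw [shL_zero]
    intro a ha v hv
    obtain ⟨j1, j2⟩ := (hL1 a ha).2 v hv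
    exact (disc_facts j1 hq hq1 j2).1
  have hg0 : ‖g 0‖ = ‖H 0‖ / 4 ^ k := by
    rw [hg]
    beta_reduce
    rw [norm_div, norm_pow, zero_add, Complex.norm_ofNat, pow_mul]
    norm_num
  rw [hg0, h0, div_le_iff₀ (by positivity)] at h3l
  refine h3l.trans ?_
  have hpw : 0 ≤ (C' / p * G) ^ t := Real.rpow_nonneg hG2 _
  have e2 : (400 : ℝ) ^ k = 100 ^ k * 4 ^ k := by rw [← mul_pow]; norm_num
  rw [hM, e2]
  calc 2 * C * n * nuL L * 100 ^ k * (C' / p * G) ^ t * 4 ^ k =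
        (2 * C * n * nuL L) * ((C' / p * G) ^ t * (100 ^ k * 4 ^ k)) := by ring
    _ ≤ (2 * C * n * B) * ((C' / p * G) ^ t * (100 ^ k * 4 ^ k)) := by
        gcongr
    _ = _ := by ring

end Vale.Agent.P321.H778
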