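import Vale.Agent.P321.H778.Mono

/-! # Classes of tests: combinations of monomials with weights in a given region -/

namespace Vale.Agent.P321.H778

open Complex Finset Vale.Agent.P321.UB

/-- `τ` is a combination of monomials with at most `k` nodes, weights in `W`, and norm `≤ B`. -/
def Cls (W : ℂ → Prop) (k : ℕ) (B : ℝ) (τ : List Bool → ℂ) : Prop :=
  ∃ L : Comb, Adm W k L ∧ nuL L ≤ B ∧ ∀ y, τ y = ev L y

theorem Cls.mono {W W' : ℂ → Prop} {k k' : ℕ} {B B' : ℝ} {τ : List Bool → ℂ} (h : Cls W k B τ)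
    (hW : ∀ z, W z → W' z) (hk : k ≤ k') (hB : B ≤ B') : Cls W' k' B' τ := by
  obtain ⟨L, h1, h2, h3⟩ := h
  exact ⟨L, fun a ha => ⟨(h1 a ha).1.trans hk, fun v hv => hW _ ((h1 a ha).2 v hv)⟩,
    h2.trans hB, h3⟩

theorem Cls.one {W : ℂ → Prop} {k : ℕ} {B : ℝ} (hB : 1 ≤ B) : Cls W k B (fun _ => 1) := by
  refine ⟨[(1, [])], ?_, ?_, fun y => ?_⟩
  · intro a ha
    rw [List.mem_singleton] at ha
    subst ha
    exact ⟨by simp, fun v hv => by simp at hv⟩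
  · rw [nuL_single]; exact hB
  · rw [ev_single]; rfl

theorem Cls.add {W : ℂ → Prop} {k : ℕ} {B B' : ℝ} {τ τ' : List Bool → ℂ} (h : Cls W k B τ)
    (h' : Cls W k B' τ') : Cls W k (B + B') (fun y => τ y + τ' y) := by
  obtain ⟨L, h1, h2, h3⟩ := h
  obtain ⟨L', h1', h2', h3'⟩ := h'
  refine ⟨L ++ L', ?_, ?_, fun y => ?_⟩
  · intro a ha
    rcases List.mem_append.1 ha with ha | ha
    · exact h1 a ha
    · exact h1' a ha
  · rw [nuL_append]; linarith
  · beta_reduce; rw [ev_append, h3, h3']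

theorem Cls.smul {W : ℂ → Prop} {k : ℕ} {B : ℝ} {τ : List Bool → ℂ} (h : Cls W k B τ) (c : ℂ) :
    Cls W k (‖c‖ * B) (fun y => c * τ y) := by
  obtain ⟨L, h1, h2, h3⟩ := h
  refine ⟨smulL c L, ?_, ?_, fun y => ?_⟩
  · intro a ha
    unfold smulL at ha
    rw [List.mem_map] at ha
    obtain ⟨p, hp, rfl⟩ := ha
    exact h1 p hp
  · rw [nuL_smulL]
    exact mul_le_mul_of_nonneg_left h2 (norm_nonneg _)
  · beta_reduce; rw [ev_smulL, h3]

/-- The conjugate monomial. -/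
noncomputable def conjZ (Z : List Node) : List Node := Z.map fun v => ((starRingEnd ℂ) v.1, v.2)

theorem O_conjZ (Z : List Node) (y : List Bool) : O (conjZ Z) y = (starRingEnd ℂ) (O Z y) := by
  induction Z generalizing y with
  | nil => simp [conjZ, O]
  | cons v Z ih =>
    change nd ((starRingEnd ℂ) v.1) v.2 (O (conjZ Z)) y = (starRingEnd ℂ) (nd v.1 v.2 (O Z) y)
    rw [nd_conj]
    congr 1
    funext u
    exact ih u

theorem nu_conjZ (Z : List Node) : nu (conjZ Z) = nu Z := by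
  induction Z with
  | nil => rfl
  | cons v Z ih =>
    change nu (conjZ Z) * (1 / (1 - ‖(starRingEnd ℂ) v.1‖)) = nu Z * (1 / (1 - ‖v.1‖))
    rw [ih, RCLike.norm_conj]

/-- The conjugate combination. -/
noncomputable def conjL (L : Comb) : Comb := L.map fun a => ((starRingEnd ℂ) a.1, conjZ a.2)

theorem ev_conjL (L : Comb) (y : List Bool) : ev (conjL L) y = (starRingEnd ℂ) (ev L y) := by
  induction L with
  | nil => simp [conjL, ev]
  | cons a L ih =>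
    change (starRingEnd ℂ) a.1 * O (conjZ a.2) y + ev (conjL L) y =
      (starRingEnd ℂ) (a.1 * O a.2 y + ev L y)
    rw [ih, O_conjZ, map_add, map_mul]

theorem nuL_conjL (L : Comb) : nuL (conjL L) = nuL L := by
  induction L with
  | nil => rfl
  | cons a L ih =>
    change ‖(starRingEnd ℂ) a.1‖ * nu (conjZ a.2) + nuL (conjL L) = ‖a.1‖ * nu a.2 + nuL L
    rw [ih, nu_conjZ, RCLike.norm_conj]

theorem Cls.conj {W : ℂ → Prop} (hW : ∀ z, W z → W ((starRingEnd ℂ) z)) {k : ℕ} {B : ℝ}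
    {τ : List Bool → ℂ} (h : Cls W k B τ) : Cls W k B (fun y => (starRingEnd ℂ) (τ y)) := by
  obtain ⟨L, h1, h2, h3⟩ := h
  refine ⟨conjL L, ?_, ?_, fun y => ?_⟩
  · intro a ha
    unfold conjL at ha
    rw [List.mem_map] at ha
    obtain ⟨p, hp, rfl⟩ := ha
    refine ⟨?_, fun v hv => ?_⟩
    · unfold conjZ
      rw [List.length_map]
      exact (h1 p hp).1
    · unfold conjZ at hv
      rw [List.mem_map] at hv
      obtain ⟨u, hu, rfl⟩ := hv
      exact hW _ ((h1 p hp).2 u hu)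
  · rw [nuL_conjL]; exact h2
  · beta_reduce; rw [ev_conjL, h3]

theorem Cls.re {W : ℂ → Prop} (hW : ∀ z, W z → W ((starRingEnd ℂ) z)) {k : ℕ} {B : ℝ}
    {τ : List Bool → ℂ} (h : Cls W k B τ) : Cls W k B (fun y => (((τ y).re : ℝ) : ℂ)) := by
  have h1 := ((h.smul (1 / 2)).add ((h.conj hW).smul (1 / 2)))
  have e1 : ‖(1 / 2 : ℂ)‖ = 1 / 2 := by norm_num
  rw [e1] at h1
  obtain ⟨L, a1, a2, a3⟩ := h1
  refine ⟨L, a1, by linarith, fun y => ?_⟩
  rw [← a3 y]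
  beta_reduce
  rw [Complex.re_eq_add_conj]
  ring

theorem Cls.im {W : ℂ → Prop} (hW : ∀ z, W z → W ((starRingEnd ℂ) z)) {k : ℕ} {B : ℝ}
    {τ : List Bool → ℂ} (h : Cls W k B τ) : Cls W k B (fun y => (((τ y).im : ℝ) : ℂ)) := by
  have h1 := ((h.smul (-I / 2)).add ((h.conj hW).smul (I / 2)))
  have e1 : ‖(-I / 2 : ℂ)‖ = 1 / 2 := by
    rw [norm_div, norm_neg, Complex.norm_I]; norm_num
  have e2 : ‖(I / 2 : ℂ)‖ = 1 / 2 := by
    rw [norm_div, Complex.norm_I]; norm_num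
  rw [e1, e2] at h1
  obtain ⟨L, a1, a2, a3⟩ := h1
  refine ⟨L, a1, by linarith, fun y => ?_⟩
  rw [← a3 y]
  beta_reduce
  rw [Complex.im_eq_sub_conj, div_eq_iff (by simp)]
  linear_combination (τ y - (starRingEnd ℂ) (τ y)) * I_sq

theorem Cls.nd {W : ℂ → Prop} {k : ℕ} {B : ℝ} {τ : List Bool → ℂ}
    (h : Cls W k B τ) {z : ℂ} (hz : W z) (hz1 : ‖z‖ < 1) (c : Bool) :
    Cls W (k + 1) (B * (1 / (1 - ‖z‖))) (H778.nd z c τ) := by
  obtain ⟨L, h1, h2, h3⟩ := h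
  refine ⟨consL 1 (z, c) L, ?_, ?_, fun y => ?_⟩
  · intro a ha
    unfold consL at ha
    rw [List.mem_map] at ha
    obtain ⟨p, hp, rfl⟩ := ha
    obtain ⟨k1, k2⟩ := h1 p hp
    refine ⟨?_, fun v hv => ?_⟩
    · simp only [List.length_cons]; omega
    · rcases List.mem_cons.1 hv with rfl | hv
      · exact hz
      · exact k2 v hv
  · rw [nuL_consL, norm_one, one_mul, mul_comm]
    have := one_le_inv_one_sub hz1
    exact mul_le_mul_of_nonneg_right h2 (by linarith)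
  · rw [ev_consL, one_mul]
    congr 1
    funext u
    exact h3 u

theorem Cls.sz {W : ℂ → Prop} {k : ℕ} {B : ℝ} {τ : List Bool → ℂ}
    (h : Cls W k B τ) {z : ℂ} (hz : W z) (hz1 : ‖z‖ < 1) :
    Cls W (k + 1) (B * (1 / (1 - ‖z‖))) (Sz z τ) := by
  rw [Sz_eq_nd]
  exact h.nd hz hz1 false

/-- The product of two combinations. -/
noncomputable def mulL : Comb → Comb → Comb
  | [], _ => []
  | a :: L, M => (M.flatMap fun b => smulL (a.1 * b.1) (mulM a.2 b.2)) ++ mulL L M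

theorem ev_flat (a : ℂ × List Node) (M : Comb) (y : List Bool) :
    ev (M.flatMap fun b => smulL (a.1 * b.1) (mulM a.2 b.2)) y = a.1 * O a.2 y * ev M y := by
  induction M with
  | nil => simp [ev]
  | cons b M ih =>
    rw [List.flatMap_cons, ev_append, ih, ev_smulL, ev_mulM]
    change _ = a.1 * O a.2 y * (b.1 * O b.2 y + ev M y)
    ring

theorem ev_mulL (L M : Comb) (y : List Bool) : ev (mulL L M) y = ev L y * ev M y := by
  induction L with
  | nil => simp [mulL, ev]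
  | cons a L ih =>
    rw [mulL, ev_append, ev_flat, ih]
    change _ = (a.1 * O a.2 y + ev L y) * ev M y
    ring

theorem nuL_flat {k k' : ℕ} {a : ℂ × List Node} (ha : a.2.length ≤ k) (ha1 : ∀ v ∈ a.2, ‖v.1‖ < 1)
    {M : Comb} (hM : ∀ b ∈ M, b.2.length ≤ k' ∧ ∀ v ∈ b.2, ‖v.1‖ < 1) :
    nuL (M.flatMap fun b => smulL (a.1 * b.1) (mulM a.2 b.2)) ≤
      3 ^ (k + k') * (‖a.1‖ * nu a.2 * nuL M) := by
  induction M with
  | nil => simp [nuL]
  | cons b M ih =>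
    have h1 := ih (fun b hb => hM b (List.mem_cons_of_mem _ hb))
    obtain ⟨h2, h3⟩ := hM b List.mem_cons_self
    have h4 := nuL_mulM_le ha1 h3
    have h5 : (3 : ℝ) ^ (a.2.length + b.2.length) ≤ 3 ^ (k + k') :=
      pow_le_pow_right₀ (by norm_num) (by omega)
    have p1 := nu_pos ha1
    have p2 := nu_pos h3
    rw [List.flatMap_cons, nuL_append, nuL_smulL, norm_mul]
    change _ ≤ 3 ^ (k + k') * (‖a.1‖ * nu a.2 * (‖b.1‖ * nu b.2 + nuL M))
    calc ‖a.1‖ * ‖b.1‖ * nuL (mulM a.2 b.2) +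
          nuL (M.flatMap fun b => smulL (a.1 * b.1) (mulM a.2 b.2))
        ≤ ‖a.1‖ * ‖b.1‖ * (3 ^ (k + k') * (nu a.2 * nu b.2)) +
          3 ^ (k + k') * (‖a.1‖ * nu a.2 * nuL M) := by
          refine add_le_add (mul_le_mul_of_nonneg_left (h4.trans ?_) (by positivity)) h1
          exact mul_le_mul_of_nonneg_right h5 (by positivity)
      _ = _ := by ring

theorem nuL_mulL {k k' : ℕ} {L M : Comb} (hL : ∀ b ∈ L, b.2.length ≤ k ∧ ∀ v ∈ b.2, ‖v.1‖ < 1)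
    (hM : ∀ b ∈ M, b.2.length ≤ k' ∧ ∀ v ∈ b.2, ‖v.1‖ < 1) :
    nuL (mulL L M) ≤ 3 ^ (k + k') * (nuL L * nuL M) := by
  induction L with
  | nil => simp [mulL, nuL]
  | cons a L ih =>
    have h1 := ih (fun b hb => hL b (List.mem_cons_of_mem _ hb))
    obtain ⟨h2, h3⟩ := hL a List.mem_cons_self
    have h4 := nuL_flat h2 h3 hM
    rw [mulL, nuL_append]
    change _ ≤ 3 ^ (k + k') * ((‖a.1‖ * nu a.2 + nuL L) * nuL M)
    calc _ ≤ 3 ^ (k + k') * (‖a.1‖ * nu a.2 * nuL M) + 3 ^ (k + k') * (nuL L * nuL M) :=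
          add_le_add h4 h1
      _ = _ := by ring

theorem adm_mulL {W1 W2 W : ℂ → Prop} {k k' : ℕ} {L M : Comb} (hL : Adm W1 k L)
    (hM : Adm W2 k' M) (h1 : ∀ z, W1 z → W z) (h2 : ∀ z, W2 z → W z)
    (h12 : ∀ z w, W1 z → W2 w → W (z * w)) : Adm W (k + k') (mulL L M) := by
  induction L with
  | nil => intro a ha; simp [mulL] at ha
  | cons a L ih =>
    have i1 := ih (fun b hb => hL b (List.mem_cons_of_mem _ hb))
    obtain ⟨i2, i3⟩ := hL a List.mem_cons_self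
    intro t ht
    rw [mulL] at ht
    rcases List.mem_append.1 ht with ht | ht
    · rw [List.mem_flatMap] at ht
      obtain ⟨b, hb, hb2⟩ := ht
      unfold smulL at hb2
      rw [List.mem_map] at hb2
      obtain ⟨p, hp, rfl⟩ := hb2
      obtain ⟨i4, i5⟩ := hM b hb
      obtain ⟨j1, j2⟩ := adm_mulM i3 i5 h1 h2 h12 p hp
      exact ⟨by simp only; omega, j2⟩
    · exact i1 t ht

theorem Cls.mul {W1 W2 W : ℂ → Prop} {k k' : ℕ} {B B' : ℝ} {τ τ' : List Bool → ℂ}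
    (h : Cls W1 k B τ) (h' : Cls W2 k' B' τ') (h1 : ∀ z, W1 z → W z) (h2 : ∀ z, W2 z → W z)
    (h12 : ∀ z w, W1 z → W2 w → W (z * w)) (hW : ∀ z, W z → ‖z‖ < 1) :
    Cls W (k + k') (3 ^ (k + k') * (B * B')) (fun y => τ y * τ' y) := by
  obtain ⟨L, a1, a2, a3⟩ := h
  obtain ⟨M, b1, b2, b3⟩ := h'
  have hL : ∀ b ∈ L, b.2.length ≤ k ∧ ∀ v ∈ b.2, ‖v.1‖ < 1 := fun b hb =>
    ⟨(a1 b hb).1, fun v hv => hW _ (h1 _ ((a1 b hb).2 v hv))⟩
  have hM : ∀ b ∈ M, b.2.length ≤ k' ∧ ∀ v ∈ b.2, ‖v.1‖ < 1 := fun b hb =>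
    ⟨(b1 b hb).1, fun v hv => hW _ (h2 _ ((b1 b hb).2 v hv))⟩
  refine ⟨mulL L M, adm_mulL a1 b1 h1 h2 h12, ?_, fun y => ?_⟩
  · refine (nuL_mulL hL hM).trans ?_
    have p1 := nuL_nonneg (fun b hb => (hL b hb).2)
    have p2 := nuL_nonneg (fun b hb => (hM b hb).2)
    have : nuL L * nuL M ≤ B * B' := mul_le_mul a2 b2 p2 (p1.trans a2)
    exact mul_le_mul_of_nonneg_left this (by positivity)
  · beta_reduce; rw [ev_mulL, a3, b3]

theorem Cls.norm_le {W : ℂ → Prop} (hW : ∀ z, W z → ‖z‖ < 1) {k : ℕ} {B : ℝ}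
    {τ : List Bool → ℂ} (h : Cls W k B τ) (y : List Bool) : ‖τ y‖ ≤ B := by
  obtain ⟨L, h1, h2, h3⟩ := h
  rw [h3]
  exact (ev_norm_le (fun a ha v hv => hW _ ((h1 a ha).2 v hv)) y).trans h2

/-- The base test. -/
theorem cls_tau0 {W : ℂ → Prop} {r : ℝ} (hr : 0 < r) (hr1 : r ≤ 1)
    (hW : W (((1 - r : ℝ)) : ℂ)) : Cls W 1 1 (tau0 r) := by
  have hn : ‖(((1 - r : ℝ)) : ℂ)‖ = 1 - r := by
    rw [Complex.norm_real, Real.norm_of_nonneg (by linarith)]
  have h1 := ((Cls.one (W := W) (k := 0) (B := 1) le_rfl).nd hW (by rw [hn]; linarith) true).smul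
    (r : ℂ)
  refine Cls.mono (B := ‖(r : ℂ)‖ * (1 * (1 / (1 - ‖(((1 - r : ℝ)) : ℂ)‖)))) (k := 1)
    (W := W) ?_ (fun _ h => h) le_rfl ?_
  · have e : tau0 r = fun y => (r : ℂ) * H778.nd (((1 - r : ℝ)) : ℂ) true (fun _ => 1) y := by
      funext y
      induction y with
      | nil => simp [tau0, H778.nd]
      | cons b y ih =>
        rw [nd_cons, tau0, ih]
        cases b <;> simp [rd] <;> ring
    rw [e]
    exact h1
  · rw [hn, norm_ofReal_nonneg hr.le]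
    apply le_of_eq
    have : 1 - (1 - r) = r := by ring
    rw [this]
    field_simp

end Vale.Agent.P321.H778
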