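import Vale.Agent.P321.H778.FinalF
import Vale.Agent.P321.H678.Step5L

/-! # The exponent `3.401` -/

namespace Vale.Agent.P321.H778

open Complex Finset Vale.Agent.P321.UB Vale.Agent.P321.R2.H613
open scoped unitInterval ENNReal

theorem stepS_of_local : StepS 10.56 5 210 300000 (10 ^ 16) (10 ^ 6) (fun t => min 1 (1.26 - t / 4)) := by
  intro n i1 f f' D κ0 κ s0 hi hr hr' hD hf hf' heq hκl hκκ hκ0 hs0 hs0i hs
  have hκ : 0 < κ := lt_of_lt_of_le (Real.exp_pos _) hκl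
  have e1 : |s0.im| / κ0 / 4 = |s0.im| / (4 * κ0) := by rw [div_div, mul_comm κ0 4]
  beta_reduce at hs
  rw [e1] at hs
  obtain ⟨g, g', F, F', h1, h2, s, h3, h4, h5⟩ := H678.step5_local hi hr hr' hf hf' heq hκl
    (by nlinarith) (by rw [le_div_iff₀ (by norm_num)]; linarith) hs0 hs0i hs
  refine ⟨g, g', F, F', h1, h2, s, h3, ?_, ?_⟩
  · refine h4.trans (le_of_eq ?_); ring
  · have e2 : |s.im| / (300000 * κ) / 4 = |s.im| / (1200000 * κ) := by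
      rw [div_div]; congr 1; ring
    beta_reduce
    rw [e2]
    exact h5

theorem growth34 : (10.56 : ℝ) < (2 : ℝ) ^ (3.401 : ℝ) := by
  have h1 : ((2 : ℝ) ^ (3.401 : ℝ)) ^ (1000 : ℕ) = (2 : ℝ) ^ (3401 : ℕ) := by
    rw [← Real.rpow_natCast, ← Real.rpow_mul (by norm_num), ← Real.rpow_natCast]
    norm_num
  have h2 : (10.56 : ℝ) ^ (5 : ℕ) ≤ 2 ^ (17 : ℕ) * 1.0019 := by norm_num
  have h4 : (1.0019 : ℝ) ^ (200 : ℕ) < 2 := by norm_num
  have h3 : (10.56 : ℝ) ^ (1000 : ℕ) < (2 : ℝ) ^ (3401 : ℕ) := by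
    calc (10.56 : ℝ) ^ (1000 : ℕ) = ((10.56 : ℝ) ^ (5 : ℕ)) ^ (200 : ℕ) := by rw [← pow_mul]
      _ ≤ (2 ^ (17 : ℕ) * 1.0019) ^ (200 : ℕ) := pow_le_pow_left₀ (by norm_num) h2 _
      _ = 2 ^ (3400 : ℕ) * (1.0019 : ℝ) ^ (200 : ℕ) := by rw [mul_pow, ← pow_mul]
      _ < 2 ^ (3400 : ℕ) * 2 := mul_lt_mul_of_pos_left h4 (by positivity)
      _ = (2 : ℝ) ^ (3401 : ℕ) := (pow_succ (2 : ℝ) 3400).symm
  rw [← h1] at h3
  exact lt_of_pow_lt_pow_left₀ 1000 (by positivity) h3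

/-- The upper bound with exponent `3.401`, for all `n ≥ 2` and all `q < 1`. -/
theorem exp34 : ∃ C : ℝ, 0 < C ∧ ∀ q : I, (q : ℝ) < 1 → ∀ n : ℕ, 2 ≤ n →
    T q n ≤ (⌊Real.exp (C / (1 - q) * (Real.log n) ^ (3.401 : ℝ))⌋₊ : ℕ∞) := by
  refine finalF stepS_of_local (by norm_num) (by norm_num) (by norm_num) (by norm_num)
    (by norm_num) (by norm_num) (ω0 := 0.01) (by norm_num) ?_ ?_ growth34
  · intro t _ ht
    refine le_min (by norm_num) ?_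
    linarith
  · intro t _ _
    exact min_le_left _ _

end Vale.Agent.P321.H778
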