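import Vale.Agent.P321.H778.IterF

/-! # Final assembly at fixed retention

For any analytic step `StepS` with factor `lam` one gets
`T_q(n) ≤ exp (C / (1 - q) * (log n) ^ α)` for every `α` with `lam < 2 ^ α`. -/

namespace Vale.Agent.P321.H778

open Complex Finset Vale.Agent.P321.UB Vale.Agent.P321.R2.H613
open scoped unitInterval ENNReal

theorem exists_params {lam α : ℝ} (hlam : 0 < lam) (h : lam < (2 : ℝ) ^ α) :
    ∃ δ η : ℝ, 0 < δ ∧ 0 < η ∧ η ≤ 1 ∧ (lam + δ) * Real.exp (2 * η) < (2 : ℝ) ^ α := by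
  set P : ℝ := (2 : ℝ) ^ α with hP
  set δ : ℝ := (P - lam) / 2 with hδ
  have hδ0 : 0 < δ := by rw [hδ]; linarith
  have hΛ : lam + δ < P := by rw [hδ]; linarith
  have hΛ0 : 0 < lam + δ := by linarith
  have hP0 : 0 < P := by linarith
  have hr : 1 < P / (lam + δ) := by rw [lt_div_iff₀ hΛ0]; linarith
  have hlog : 0 < Real.log (P / (lam + δ)) := Real.log_pos hr
  refine ⟨δ, min 1 (Real.log (P / (lam + δ)) / 4), hδ0, by positivity, min_le_left _ _, ?_⟩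
  have h1 : 2 * min 1 (Real.log (P / (lam + δ)) / 4) < Real.log (P / (lam + δ)) := by
    have := min_le_right 1 (Real.log (P / (lam + δ)) / 4)
    linarith
  have h2 : Real.exp (2 * min 1 (Real.log (P / (lam + δ)) / 4)) < P / (lam + δ) := by
    rw [← Real.lt_log_iff_exp_lt (by linarith)]
    exact h1
  rw [lt_div_iff₀ hΛ0] at h2
  linarith

theorem mul_pow_le {ρ : ℝ} (h0 : 0 < ρ) (h1 : ρ < 1) (K : ℕ) : (K : ℝ) * ρ ^ K ≤ ρ / (1 - ρ) := by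
  have h2 : 0 < 1 - ρ := by linarith
  have h3 := one_add_mul_le_pow (a := 1 / ρ - 1) (by
    have : 0 < 1 / ρ := by positivity
    linarith) K
  have h4 : 1 + (1 / ρ - 1) = 1 / ρ := by ring
  rw [h4] at h3
  have h5 : 0 < ρ ^ K := by positivity
  have h6 : (K : ℝ) * (1 / ρ - 1) ≤ (1 / ρ) ^ K := by linarith
  have h7 := mul_le_mul_of_nonneg_right h6 h5.le
  have h8 : (1 / ρ) ^ K * ρ ^ K = 1 := by
    rw [← mul_pow]
    have : 1 / ρ * ρ = 1 := by field_simp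
    rw [this, one_pow]
  rw [h8] at h7
  have h9 : 1 / ρ - 1 = (1 - ρ) / ρ := by field_simp
  rw [h9] at h7
  rw [le_div_iff₀ h2]
  have h10 : (K : ℝ) * ((1 - ρ) / ρ) * ρ ^ K = (K * ρ ^ K * (1 - ρ)) / ρ := by ring
  rw [h10, div_le_iff₀ h0] at h7
  linarith

/-- The scales. -/
theorem scales {V Y U β η M0 A m a κb κ1 c2 : ℝ} {J J1 : ℕ} (hβ : 1 ≤ β) (hY : 1 ≤ Y)
    (hU : 1 ≤ U) (hV : 10 ≤ V) (hη : 0 < η) (hη1 : η ≤ 1)
    (hM0 : M0 = V * Y + U * Y + 2 * (U + V) * Y ^ 2 + 8 * (1 + β))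
    (hJM : 2 * M0 ≤ η * J) (hηJ1 : 6 ≤ η * J1) (hAdef : A = Real.exp (η * J))
    (hmdef : m = 3 ^ J) (hadef : a = A / (U * Y)) (hκb : κb = 1 / V) (hκ1 : κ1 = κb / a ^ J1)
    (hc2 : c2 = U * m * Y ^ 2) :
    16 ≤ a ∧ a ≤ A ∧ V * Y ≤ A ∧ M0 ≤ m ∧ 0 < κ1 ∧ c2 * κ1 ≤ 1 / 2 ∧ V * m * Y ^ 2 * κ1 ≤ 1 ∧
      κ1 ≤ κb ∧ m ≤ c2 := by
  have hVY0 : 0 < V * Y := by positivity
  have hUY0 : 0 < U * Y := by positivity
  have hUY2 : 0 < U * Y ^ 2 := by positivity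
  have hVY2 : 0 < V * Y ^ 2 := by positivity
  have hexp : 2 * (U + V) * Y ^ 2 = 2 * (U * Y ^ 2) + 2 * (V * Y ^ 2) := by ring
  rw [hexp] at hM0
  have hM16 : 16 ≤ M0 := by linarith
  have hM0pos : 0 < M0 := by linarith
  have hA0 : 0 < A := by rw [hAdef]; exact Real.exp_pos _
  have hm0 : 0 < m := by rw [hmdef]; positivity
  have hhalf : M0 ≤ Real.exp (η * J / 2) := by
    have := Real.add_one_le_exp (η * J / 2)
    linarith
  have ha2 : Real.exp (η * J / 2) ≤ a := by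
    rw [hadef, le_div_iff₀ hUY0, hAdef]
    have e1 : Real.exp (η * J) = Real.exp (η * J / 2) * Real.exp (η * J / 2) := by
      rw [← Real.exp_add]; congr 1; ring
    rw [e1]
    apply mul_le_mul_of_nonneg_left _ (Real.exp_pos _).le
    refine le_trans ?_ hhalf
    linarith
  have ha16 : 16 ≤ a := hM16.trans (hhalf.trans ha2)
  have ha0 : 0 < a := by linarith
  have haA : a ≤ A := by
    rw [hadef]
    exact div_le_self hA0.le (one_le_mul_of_one_le_of_one_le hU hY)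
  have hMA : M0 ≤ A := (hhalf.trans ha2).trans haA
  have hVYA : V * Y ≤ A := by linarith
  have hJ0 : (0 : ℝ) ≤ J := Nat.cast_nonneg _
  have hηJJ : η * (J : ℝ) / 2 ≤ J := by
    have : η * (J : ℝ) ≤ J := mul_le_of_le_one_left hJ0 hη1
    have h0 : 0 ≤ η * (J : ℝ) := by positivity
    linarith
  have hMJ : M0 ≤ Real.exp J := hhalf.trans (Real.exp_le_exp.2 hηJJ)
  have hm3 : Real.exp J ≤ m := by
    rw [hmdef]
    have e1 : Real.exp J = (Real.exp 1) ^ J := by rw [← Real.exp_nat_mul]; simp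
    rw [e1]
    exact pow_le_pow_left₀ (Real.exp_pos _).le (by linarith [Real.exp_one_lt_d9]) J
  have hmM : M0 ≤ m := hMJ.trans hm3
  have hV0 : 0 < V := by linarith
  have hκb0 : 0 < κb := by rw [hκb]; positivity
  have hκbV : κb ≤ 1 := by
    rw [hκb, div_le_one hV0]; linarith
  have hκ10 : 0 < κ1 := by rw [hκ1]; positivity
  have hmκ1 : m * κ1 ≤ 1 / M0 := by
    have e1 : Real.exp (3 * J) ≤ a ^ J1 := by
      calc Real.exp (3 * J) ≤ Real.exp ((J1 : ℝ) * (η * J / 2)) := by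
            apply Real.exp_le_exp.2
            have : 6 * (J : ℝ) ≤ (η * J1) * J := mul_le_mul_of_nonneg_right hηJ1 hJ0
            linarith
        _ = (Real.exp (η * J / 2)) ^ J1 := by rw [← Real.exp_nat_mul]
        _ ≤ a ^ J1 := pow_le_pow_left₀ (Real.exp_pos _).le ha2 J1
    have e2 : m ≤ Real.exp (2 * J) := by
      rw [hmdef]
      have e3 : Real.exp (2 * (J : ℝ)) = (Real.exp 2) ^ J := by
        rw [← Real.exp_nat_mul]; congr 1; ring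
      rw [e3]
      apply pow_le_pow_left₀ (by norm_num)
      have := Real.add_one_le_exp (2 : ℝ)
      linarith
    have e4 : m * κ1 ≤ Real.exp (-(J : ℝ)) := by
      rw [hκ1]
      calc m * (κb / a ^ J1) ≤ Real.exp (2 * J) * (1 / Real.exp (3 * J)) := by
            apply mul_le_mul e2 _ (by positivity) (Real.exp_pos _).le
            exact div_le_div₀ (by norm_num) hκbV (Real.exp_pos _) e1
        _ = Real.exp (-(J : ℝ)) := by
            rw [one_div, ← Real.exp_neg, ← Real.exp_add]; congr 1; ring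
    refine e4.trans ?_
    rw [Real.exp_neg, ← one_div]
    exact one_div_le_one_div_of_le hM0pos hMJ
  have hMm : m * κ1 * M0 ≤ 1 := by
    rwa [le_div_iff₀ hM0pos] at hmκ1
  have hmκ0 : 0 < m * κ1 := by positivity
  have hU1 : U * Y ^ 2 * 2 ≤ M0 := by linarith
  have hV1 : V * Y ^ 2 ≤ M0 := by linarith
  refine ⟨ha16, haA, hVYA, hmM, hκ10, ?_, ?_, ?_, ?_⟩
  · have h1 : c2 * κ1 * 2 = m * κ1 * (U * Y ^ 2 * 2) := by rw [hc2]; ring
    have h2 := mul_le_mul_of_nonneg_left hU1 hmκ0.le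
    linarith
  · have h1 : V * m * Y ^ 2 * κ1 = m * κ1 * (V * Y ^ 2) := by ring
    have h2 := mul_le_mul_of_nonneg_left hV1 hmκ0.le
    linarith
  · rw [hκ1]
    exact div_le_self hκb0.le (one_le_pow₀ (by linarith))
  · rw [hc2]
    have e1 : 1 ≤ U * Y ^ 2 := one_le_mul_of_one_le_of_one_le hU (one_le_pow₀ hY)
    calc m = m * 1 := (mul_one m).symm
      _ ≤ m * (U * Y ^ 2) := mul_le_mul_of_nonneg_left e1 hm0.le
      _ = U * m * Y ^ 2 := by ring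

/-- The floor for the scales. -/
theorem floor_scale {V U η A a κb κ1 K0 E' : ℝ} {J J1 : ℕ}
    (hU : 1 ≤ U) (hV : 10 ≤ V) (hJ : (1 : ℝ) ≤ J)
    (hAdef : A = Real.exp (η * J)) (ha : 0 < a) (haA : a ≤ A) (hκb : κb = 1 / V)
    (hκ1 : κ1 = κb / a ^ J1) (hE' : 0 < E')
    (hK0 : E' * (2 * (Real.log V + Real.log U + η * J1)) ≤ K0) :
    Real.exp (-(K0 * J / E')) ≤ (κ1 / U) ^ 2 := by
  have hV0 : 0 < V := by linarith
  have hA0 : 0 < A := by linarith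
  have hlogV : 0 ≤ Real.log V := Real.log_nonneg (by linarith)
  have hlogU : 0 ≤ Real.log U := Real.log_nonneg hU
  have e1 : Real.exp (-(Real.log V + Real.log U + η * J1 * J)) ≤ κ1 / U := by
    have e2 : Real.exp (-(Real.log V + Real.log U + η * J1 * J)) =
        (1 / V) / (A ^ J1) / U := by
      have : -(Real.log V + Real.log U + η * J1 * J) =
          -Real.log V + (-(J1 * (η * J))) + (-Real.log U) := by ring
      rw [this, Real.exp_add, Real.exp_add, Real.exp_neg, Real.exp_neg, Real.exp_neg,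
        Real.exp_log hV0, Real.exp_log (by linarith), Real.exp_nat_mul, ← hAdef]
      field_simp
    rw [e2, hκ1, hκb]
    gcongr
  have e3 : 2 * (Real.log V + Real.log U + η * J1 * J) ≤ K0 * J / E' := by
    rw [le_div_iff₀ hE']
    have e5 : Real.log V + Real.log U ≤ (Real.log V + Real.log U) * J :=
      le_mul_of_one_le_right (by linarith) hJ
    have e6 : (Real.log V + Real.log U) * E' ≤ (Real.log V + Real.log U) * J * E' :=
      mul_le_mul_of_nonneg_right e5 hE'.le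
    have e7 := mul_le_mul_of_nonneg_right hK0 (show (0 : ℝ) ≤ J by linarith)
    have e8 : E' * (2 * (Real.log V + Real.log U + η * J1)) * J =
        2 * ((Real.log V + Real.log U) * J * E') + 2 * (η * J1 * J) * E' := by ring
    have e9 : 2 * (Real.log V + Real.log U + η * J1 * J) * E' =
        2 * ((Real.log V + Real.log U) * E') + 2 * (η * J1 * J) * E' := by ring
    linarith
  calc Real.exp (-(K0 * J / E')) ≤ Real.exp (-(2 * (Real.log V + Real.log U + η * J1 * J))) :=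
        Real.exp_le_exp.2 (by linarith)
    _ = (Real.exp (-(Real.log V + Real.log U + η * J1 * J))) ^ 2 := by
        rw [← Real.exp_nat_mul]; congr 1; push_cast; ring
    _ ≤ (κ1 / U) ^ 2 := pow_le_pow_left₀ (Real.exp_pos _).le e1 2

/-- The final numerics. -/
theorem numF {Λ η α K0 Q P ρ Jc p q A : ℝ} {J0 J1 J K n : ℕ} (hΛ3 : 3 ≤ Λ) (hη : 0 < η)
    (hα0 : 0 ≤ α)
    (hQdef : Q = Λ * Real.exp (2 * η)) (hP : P = (2 : ℝ) ^ α) (hρ : ρ = Q / P) (hρ1 : ρ < 1)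
    (hJc : Jc = (J1 : ℝ) + J0) (hK0 : 1 ≤ K0) (hp : 0 < p)
    (hA1 : 1 ≤ A) (hAdef : A = Real.exp (η * J)) (hq : q = 1 / (8 * (A ^ 2 + 1)))
    (hJ : J = J1 + (J0 + K)) (hJ1R : (1 : ℝ) ≤ J) (hn2 : 2 ≤ n) (hnK : n ≤ 2 ^ (2 ^ K))
    (hKlog : (2 : ℝ) ^ K ≤ 6 * Real.log n) :
    3 / (p * q) * (Λ ^ J * (K0 * J) + 6 * ((kk J : ℕ) : ℝ) + Real.log (6 * ((n : ℝ) + 1)) + 1) +
      2 / p ≤ (50 * (K0 + 23) * (Q ^ (J1 + J0) * (Jc + ρ / (1 - ρ))) * 6 ^ α + 1) * (1 / p) *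
        (Real.log n) ^ α := by
  have hΛ1 : 1 ≤ Λ := by linarith
  have hQ0 : 0 < Q := by rw [hQdef]; positivity
  have hP0 : 0 < P := by rw [hP]; positivity
  have hρ0 : 0 < ρ := by rw [hρ]; positivity
  have hρ2 : 0 < 1 - ρ := by linarith
  have hJc0 : 0 ≤ Jc := by rw [hJc]; positivity
  have hnR : (2 : ℝ) ≤ n := by exact_mod_cast hn2
  have hA2 : 1 ≤ A ^ 2 := one_le_pow₀ hA1
  have hΛJ : 1 ≤ Λ ^ J := one_le_pow₀ hΛ1
  have hkJ : ((kk J : ℕ) : ℝ) ≤ 3 * Λ ^ J := by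
    have e1 : ((kk J : ℕ) : ℝ) + 2 ≤ 3 ^ (J + 1) := by exact_mod_cast kk_le J
    have e2 : (3 : ℝ) ^ J ≤ Λ ^ J := pow_le_pow_left₀ (by norm_num) hΛ3 J
    rw [pow_succ] at e1
    linarith
  have hlogn : Real.log (6 * ((n : ℝ) + 1)) ≤ 3 + Λ ^ J := by
    have e1 : 6 * ((n : ℝ) + 1) ≤ 12 * n := by linarith
    have e2 : Real.log (6 * ((n : ℝ) + 1)) ≤ Real.log (12 * n) :=
      Real.log_le_log (by positivity) e1
    have e3 : Real.log (12 * n) = Real.log 12 + Real.log n :=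
      Real.log_mul (by norm_num) (by linarith)
    have e4 : Real.log 12 ≤ 3 := by
      rw [Real.log_le_iff_le_exp (by norm_num)]
      have h8 : Real.exp 3 = (Real.exp 1) ^ 3 := by
        rw [← Real.exp_nat_mul]; norm_num
      rw [h8]
      have h9 : (2.7 : ℝ) ^ 3 ≤ (Real.exp 1) ^ 3 :=
        pow_le_pow_left₀ (by norm_num) (by linarith [Real.exp_one_gt_d9]) 3
      refine le_trans ?_ h9
      norm_num
    have e5 : Real.log n ≤ 2 ^ K := by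
      have h1 : (n : ℝ) ≤ 2 ^ (2 ^ K) := by exact_mod_cast hnK
      have h2 : Real.log n ≤ Real.log (2 ^ (2 ^ K)) := Real.log_le_log (by linarith) h1
      rw [Real.log_pow] at h2
      have h3 : Real.log 2 ≤ 1 := by linarith [Real.log_two_lt_d9]
      have h4 : ((2 ^ K : ℕ) : ℝ) * Real.log 2 ≤ ((2 ^ K : ℕ) : ℝ) * 1 :=
        mul_le_mul_of_nonneg_left h3 (Nat.cast_nonneg _)
      push_cast at h2 h4
      linarith
    have e6 : (2 : ℝ) ^ K ≤ Λ ^ J := by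
      calc (2 : ℝ) ^ K ≤ Λ ^ K := pow_le_pow_left₀ (by norm_num) (by linarith) K
        _ ≤ Λ ^ J := pow_le_pow_right₀ hΛ1 (by omega)
    linarith
  have hsum : Λ ^ J * (K0 * J) + 6 * ((kk J : ℕ) : ℝ) + Real.log (6 * ((n : ℝ) + 1)) + 1 ≤
      (K0 + 23) * (Λ ^ J * J) := by
    have e1 : Λ ^ J ≤ Λ ^ J * J := le_mul_of_one_le_right (by linarith) hJ1R
    have e2 : Λ ^ J * (K0 * J) = K0 * (Λ ^ J * J) := by ring
    rw [e2]
    linarith
  have hqinv : 3 / (p * q) ≤ 48 * A ^ 2 * (1 / p) := by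
    rw [hq]
    have e1 : 3 / (p * (1 / (8 * (A ^ 2 + 1)))) = 24 * (A ^ 2 + 1) * (1 / p) := by
      field_simp
      norm_num
    rw [e1]
    apply mul_le_mul_of_nonneg_right _ (by positivity)
    linarith
  have hpinv : 0 < 1 / p := by positivity
  have hAQ : A ^ 2 * Λ ^ J = Q ^ J := by
    rw [hQdef, mul_pow, hAdef, ← Real.exp_nat_mul, ← Real.exp_nat_mul, mul_comm]
    congr 2
    push_cast
    ring
  have hQ1 : 1 ≤ Q := by
    rw [hQdef]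
    exact one_le_mul_of_one_le_of_one_le hΛ1 (Real.one_le_exp (by positivity))
  have hQJ : Q ^ J * J ≤ Q ^ (J1 + J0) * (Jc + ρ / (1 - ρ)) * 6 ^ α * (Real.log n) ^ α := by
    have e1 : Q ^ J = Q ^ (J1 + J0) * (P ^ K * ρ ^ K) := by
      have : Q = P * ρ := by rw [hρ]; field_simp
      have e2 : J = J1 + J0 + K := by omega
      rw [e2, pow_add, ← mul_pow, ← this]
    have e3 : (J : ℝ) = Jc + K := by rw [hJ, hJc]; push_cast; ring
    have e4 : ρ ^ K * (J : ℝ) ≤ Jc + ρ / (1 - ρ) := by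
      rw [e3, mul_add]
      have h1 := mul_pow_le hρ0 hρ1 K
      have h2 : ρ ^ K * Jc ≤ Jc := mul_le_of_le_one_left hJc0 (pow_le_one₀ hρ0.le hρ1.le)
      have h3 : ρ ^ K * (K : ℝ) = K * ρ ^ K := by ring
      linarith
    have e5 : P ^ K ≤ 6 ^ α * (Real.log n) ^ α := by
      have h1 : P ^ K = ((2 : ℝ) ^ K) ^ α := by
        rw [hP, ← Real.rpow_natCast, ← Real.rpow_mul (by norm_num), mul_comm,
          Real.rpow_mul (by norm_num), Real.rpow_natCast]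
      rw [h1, ← Real.mul_rpow (by norm_num) (Real.log_nonneg (by linarith))]
      exact Real.rpow_le_rpow (by positivity) hKlog hα0
    have hlogα : 0 ≤ (Real.log n) ^ α := Real.rpow_nonneg (Real.log_nonneg (by linarith)) _
    calc Q ^ J * J = Q ^ (J1 + J0) * (P ^ K * (ρ ^ K * J)) := by rw [e1]; ring
      _ ≤ Q ^ (J1 + J0) * ((6 ^ α * (Real.log n) ^ α) * (Jc + ρ / (1 - ρ))) := by
          gcongr
      _ = _ := by ring
  have hL : 3 / (p * q) * (Λ ^ J * (K0 * J) + 6 * ((kk J : ℕ) : ℝ) +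
      Real.log (6 * ((n : ℝ) + 1)) + 1) ≤ 48 * (K0 + 23) * (1 / p) * (Q ^ J * J) := by
    calc 3 / (p * q) * (Λ ^ J * (K0 * J) + 6 * ((kk J : ℕ) : ℝ) +
          Real.log (6 * ((n : ℝ) + 1)) + 1)
        ≤ (48 * A ^ 2 * (1 / p)) * ((K0 + 23) * (Λ ^ J * J)) := by
          apply mul_le_mul hqinv hsum _ (by positivity)
          have : 0 ≤ Real.log (6 * ((n : ℝ) + 1)) := Real.log_nonneg (by linarith)
          positivity
      _ = 48 * (K0 + 23) * (1 / p) * ((A ^ 2 * Λ ^ J) * J) := by ring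
      _ = _ := by rw [hAQ]
  have h2p : 2 / p ≤ 2 * (K0 + 23) * (1 / p) * (Q ^ J * J) := by
    have e1 : 1 ≤ Q ^ J * J := one_le_mul_of_one_le_of_one_le (one_le_pow₀ hQ1) hJ1R
    have e2 : 1 ≤ (K0 + 23) * (Q ^ J * J) :=
      one_le_mul_of_one_le_of_one_le (by linarith) e1
    calc 2 / p = 2 * (1 / p) * 1 := by ring
      _ ≤ 2 * (1 / p) * ((K0 + 23) * (Q ^ J * J)) := mul_le_mul_of_nonneg_left e2 (by positivity)
      _ = _ := by ring
  have hlogα : 0 ≤ (Real.log n) ^ α := Real.rpow_nonneg (Real.log_nonneg (by linarith)) _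
  have hX0 : 0 ≤ 50 * (K0 + 23) * (1 / p) := by positivity
  calc _ ≤ 48 * (K0 + 23) * (1 / p) * (Q ^ J * J) + 2 * (K0 + 23) * (1 / p) * (Q ^ J * J) :=
        add_le_add hL h2p
    _ = 50 * (K0 + 23) * (1 / p) * (Q ^ J * J) := by ring
    _ ≤ 50 * (K0 + 23) * (1 / p) *
        (Q ^ (J1 + J0) * (Jc + ρ / (1 - ρ)) * 6 ^ α * (Real.log n) ^ α) :=
        mul_le_mul_of_nonneg_left hQJ hX0
    _ = (50 * (K0 + 23) * (Q ^ (J1 + J0) * (Jc + ρ / (1 - ρ))) * 6 ^ α) * (1 / p) *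
        (Real.log n) ^ α := by ring
    _ ≤ (50 * (K0 + 23) * (Q ^ (J1 + J0) * (Jc + ρ / (1 - ρ))) * 6 ^ α + 1) * (1 / p) *
        (Real.log n) ^ α := by
        gcongr
        linarith

/-- The last state of the iteration. -/
theorem state_of_step {lam β Y U V E : ℝ} {ω : ℝ → ℝ} (h5 : StepS lam β Y U V E ω)
    (hβ : 1 ≤ β) (hY : 1 ≤ Y) (hU : 1 ≤ U) (hV : 10 ≤ V) (hE : 0 < E)
    {ω0 : ℝ} (hω0 : 0 < ω0) (hω : ∀ t, 0 ≤ t → t ≤ β → ω0 ≤ ω t)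
    {δ η Λ E' M0 K0 A m : ℝ} {J J0 J1 K n : ℕ} (hδ : 0 < δ) (hη : 0 < η) (hη1 : η ≤ 1)
    (hΛdef : Λ = lam + δ) (hΛ3 : 3 ≤ Λ) (hEE' : E ≤ E')
    (hE'13 : 13 ≤ E' * (δ * ω0))
    (hM0 : M0 = V * Y + U * Y + 2 * (U + V) * Y ^ 2 + 8 * (1 + β))
    (hJM : 2 * M0 ≤ η * J) (hηJ1 : 6 ≤ η * J1) (hJ1R : (1 : ℝ) ≤ J)
    (hK1 : E' * (2 * (Real.log V + Real.log U + η * J1)) ≤ K0) (hK2 : 3 * E' ≤ K0)
    (hK3 : (4 * V + 1) * (4 * V) / ω0 ≤ K0) (hAdef : A = Real.exp (η * J)) (hmdef : m = 3 ^ J)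
    (hJ : J = J1 + (J0 + K)) (hn2 : 2 ≤ n) (hnK : n ≤ 2 ^ (2 ^ K))
    {x x' : List Bool} {i1 : ℕ} (hl : x.length = x'.length)
    (g2 : i1 ≤ x.length) (g3 : ∀ τ, ∀ i < i1, sq x τ i = sq x' τ i)
    (g4 : ∀ r : ℝ, 0 ≤ r → ‖sq x (tau0 r) i1 - sq x' (tau0 r) i1‖ = r) :
    ∃ κf : ℝ, 0 < κf ∧ 2 * (1 + β) * κf * ((n : ℝ) + 1) ≤ 1 ∧
      GoodF A m β ω x x' i1 (3 ^ J) (kk J) κf (Λ ^ J * (K0 * J)) := by
  have hnR : (2 : ℝ) ≤ n := by exact_mod_cast hn2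
  have hE'0 : 0 < E' := by linarith
  obtain ⟨κb, hκb⟩ : ∃ κb : ℝ, κb = 1 / V := ⟨_, rfl⟩
  obtain ⟨a, hadef⟩ : ∃ a : ℝ, a = A / (U * Y) := ⟨_, rfl⟩
  obtain ⟨κ1, hκ1⟩ : ∃ κ1 : ℝ, κ1 = κb / a ^ J1 := ⟨_, rfl⟩
  obtain ⟨c2, hc2⟩ : ∃ c2 : ℝ, c2 = U * m * Y ^ 2 := ⟨_, rfl⟩
  obtain ⟨ha16, haA, hVYA, hmM, hκ10, hc2κ, hVmκ, hκ1b, hc2m⟩ := scales hβ hY hU hV hη hη1 hM0
    hJM hηJ1 hAdef hmdef hadef hκb hκ1 hc2
  have hA0 : 0 < A := by rw [hAdef]; exact Real.exp_pos _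
  have hm0 : 0 < m := by rw [hmdef]; positivity
  have hm1 : 1 ≤ m := by rw [hmdef]; exact one_le_pow₀ (by norm_num)
  have hV0 : 0 < V := by linarith
  have hκb0 : 0 < κb := by rw [hκb]; positivity
  have hκb10 : κb ≤ 1 / 10 := by rw [hκb]; exact one_div_le_one_div_of_le (by norm_num) hV
  have hVκb : V * κb = 1 := by rw [hκb]; field_simp
  have hVκ1 : V * κ1 ≤ 1 := by
    rw [← hVκb]
    exact mul_le_mul_of_nonneg_left hκ1b hV0.le
  have hK00 : 0 < K0 := by linarith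
  obtain ⟨D0, hD0⟩ : ∃ D0 : ℝ, D0 = K0 * J := ⟨_, rfl⟩
  have hD0K : K0 ≤ D0 := by rw [hD0]; exact le_mul_of_one_le_right hK00.le hJ1R
  have hD00 : 0 < D0 := by linarith
  have hDE0 : 0 ≤ D0 / E' := by positivity
  have hfl : Real.exp (-(D0 / E')) ≤ (κ1 / U) ^ 2 := by
    rw [hD0]
    exact floor_scale hU hV hJ1R hAdef (by linarith) haA hκb hκ1 hE'0 hK1
  have hΛ1 : 1 ≤ Λ := by linarith
  -- the abstract state
  set Pr : ℕ → ℝ → Prop := fun j κ =>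
    GoodF A m β ω x x' i1 (3 ^ j) (kk j) κ (Λ ^ j * D0) with hPr
  have hstep : ∀ (j : ℕ) (κ κ' : ℝ), j < J → 0 < κ' → V * κ' ≤ κ → V * κ ≤ 1 →
      Y * κ ≤ A * κ' + Real.sqrt (κ' / m) → Real.exp (-(Λ ^ j * D0 / E')) ≤ κ' →
      Pr j κ → Pr (j + 1) (U * κ') := by
    intro j κ κ' _ hκ' hκκ hκ1' hYκ hfl' hP
    have h3j : (1 : ℝ) ≤ 3 ^ j := one_le_pow₀ (by norm_num)
    have hDj : ((kk j : ℕ) : ℝ) + 1 ≤ 3 * Λ ^ j := by
      have e1 : ((kk j : ℕ) : ℝ) + 2 ≤ 3 ^ (j + 1) := by exact_mod_cast kk_le j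
      have e2 : (3 : ℝ) ^ j ≤ Λ ^ j := pow_le_pow_left₀ (by norm_num) hΛ3 j
      rw [pow_succ] at e1
      linarith
    have h := goodF_step h5 (by linarith) hω0 hω (by linarith) hδ hEE' hE hE'13 hm0 hl g2 g3
      h3j hκ' hκκ hκ1' hYκ (D := Λ ^ j * D0) (by
        have e3 : (((kk j : ℕ) : ℝ) + 1) * E' ≤ (3 * Λ ^ j) * E' :=
          mul_le_mul_of_nonneg_right hDj hE'0.le
        have e4 : (3 * Λ ^ j) * E' = Λ ^ j * (3 * E') := by ring
        have e5 : Λ ^ j * (3 * E') ≤ Λ ^ j * D0 :=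
          mul_le_mul_of_nonneg_left (hK2.trans hD0K) (by positivity)
        linarith) hfl' hP
    have e6 : (3 : ℝ) * 3 ^ j = 3 ^ (j + 1) := by ring
    have e7 : (lam + δ) * (Λ ^ j * D0) = Λ ^ (j + 1) * D0 := by rw [← hΛdef]; ring
    rw [e6, e7] at h
    exact h
  have hbase : Pr 0 κb := by
    have h := goodF_base (A := A) (m := m) (ω := ω) hA0.le hβ hω0 hω hκb0 hκb10 g2 g4 (D := D0) (by
      have e1 : 4 / κb = 4 * V := by rw [hκb]; field_simp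
      rw [e1]
      exact hK3.trans hD0K)
    simpa [hPr, kk] using h
  have hκ1U : (κ1 / U) ^ 2 ≤ κ1 / U := by
    have e1 : κ1 / U ≤ 1 := by
      rw [div_le_one (by linarith)]
      linarith
    have e2 : 0 ≤ κ1 / U := by positivity
    nlinarith
  have hlowP := low_phase hstep hbase (show J1 ≤ J by omega) (by linarith) (by linarith) hA0 hadef
    (by linarith) hVYA hV0 hκb0 hVκb.le (by rw [← hκ1]; exact hfl.trans hκ1U) hΛ1 hDE0 J1 le_rfl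
  rw [← hκ1] at hlowP
  have hhighP := high_phase hstep hlowP hU hY hA0 hV0 hm1 hc2 hκ10 (by linarith) hVmκ hVκ1 hfl
    (by linarith) hDE0 (J0 + K) (by omega)
  rw [← hJ] at hhighP
  have hc20 : 0 < c2 := by linarith
  refine ⟨(c2 * κ1) ^ (2 ^ (J0 + K)) / c2, by positivity, ?_, ?_⟩
  · have e1 : (c2 * κ1) ^ (2 ^ (J0 + K)) ≤ 1 / n := by
      calc (c2 * κ1) ^ (2 ^ (J0 + K)) ≤ (1 / 2) ^ (2 ^ (J0 + K)) :=
            pow_le_pow_left₀ (by positivity) hc2κ _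
        _ ≤ (1 / 2) ^ (2 ^ K) := by
            apply pow_le_pow_of_le_one (by norm_num) (by norm_num)
            exact Nat.pow_le_pow_right (by norm_num) (by omega)
        _ = 1 / 2 ^ (2 ^ K) := by rw [one_div_pow]
        _ ≤ 1 / n := by
            apply one_div_le_one_div_of_le (by linarith)
            exact_mod_cast hnK
    have e2 : 8 * (1 + β) ≤ c2 := by
      refine le_trans ?_ (hmM.trans hc2m)
      have : 0 < V * Y := by positivity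
      have : 0 < U * Y := by positivity
      have : 0 < 2 * (U + V) * Y ^ 2 := by positivity
      linarith
    have e3 : (c2 * κ1) ^ (2 ^ (J0 + K)) / c2 ≤ 1 / n / (8 * (1 + β)) :=
      div_le_div₀ (by positivity) e1 (by positivity) e2
    calc 2 * (1 + β) * ((c2 * κ1) ^ (2 ^ (J0 + K)) / c2) * ((n : ℝ) + 1) ≤
          2 * (1 + β) * (1 / n / (8 * (1 + β))) * (2 * n) := by
          gcongr
          linarith
      _ = 1 / 2 := by field_simp; norm_num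
      _ ≤ 1 := by norm_num
  · rw [← hD0]
    exact hhighP

/-- The gap at retention `p` from the analytic step. -/
theorem gap_of_step {lam β Y U V E : ℝ} {ω : ℝ → ℝ} (h5 : StepS lam β Y U V E ω)
    (hlam : 3 ≤ lam) (hβ : 1 ≤ β) (hY : 1 ≤ Y) (hU : 1 ≤ U) (hV : 10 ≤ V) (hE : 0 < E)
    {ω0 : ℝ} (hω0 : 0 < ω0) (hω : ∀ t, 0 ≤ t → t ≤ β → ω0 ≤ ω t)
    (hω1 : ∀ t, 0 ≤ t → t ≤ β → ω t ≤ 1) {α : ℝ} (hα : lam < (2 : ℝ) ^ α) :
    ∃ C : ℝ, 0 < C ∧ ∀ p : ℝ, 0 < p → p ≤ 1 → ∀ x x' : List Bool, x.length = x'.length →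
      2 ≤ x.length → x ≠ x' →
      ∃ Φ : List Bool → ℂ, (∀ u, u.length ≤ x.length → ‖Φ u‖ ≤ 1) ∧
        Real.exp (-(C * (1 / p) * (Real.log x.length) ^ α)) ≤ ‖FE p Φ x - FE p Φ x'‖ := by
  obtain ⟨δ, η, hδ, hη, hη1, hQ⟩ := exists_params (by linarith) hα
  obtain ⟨Λ, hΛdef⟩ : ∃ Λ : ℝ, Λ = lam + δ := ⟨_, rfl⟩
  have hΛ3 : 3 ≤ Λ := by rw [hΛdef]; linarith
  obtain ⟨E', hE'def⟩ : ∃ E' : ℝ, E' = max E (13 / (δ * ω0)) := ⟨_, rfl⟩
  have hEE' : E ≤ E' := by rw [hE'def]; exact le_max_left _ _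
  have hE'0 : 0 < E' := by linarith
  have hE'13 : 13 ≤ E' * (δ * ω0) := by
    have h1 : 13 / (δ * ω0) ≤ E' := by rw [hE'def]; exact le_max_right _ _
    rwa [div_le_iff₀ (by positivity)] at h1
  obtain ⟨M0, hM0⟩ : ∃ M0 : ℝ, M0 = V * Y + U * Y + 2 * (U + V) * Y ^ 2 + 8 * (1 + β) :=
    ⟨_, rfl⟩
  have hM16 : 16 ≤ M0 := by
    have : 0 < V * Y := by positivity
    have : 0 < U * Y := by positivity
    have : 0 < 2 * (U + V) * Y ^ 2 := by positivity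
    linarith
  obtain ⟨J0, hJ0⟩ := exists_nat_ge (2 * M0 / η)
  obtain ⟨J1, hJ1⟩ := exists_nat_ge (6 / η)
  obtain ⟨K0, hK0⟩ : ∃ K0 : ℝ, K0 = E' * (2 * (Real.log V + Real.log U + η * J1)) + 3 * E' +
    (4 * V + 1) * (4 * V) / ω0 + 1 := ⟨_, rfl⟩
  have hlogV : 0 ≤ Real.log V := Real.log_nonneg (by linarith)
  have hlogU : 0 ≤ Real.log U := Real.log_nonneg hU
  have hbase0 : 0 ≤ (4 * V + 1) * (4 * V) / ω0 := by positivity
  have hlogs0 : 0 ≤ E' * (2 * (Real.log V + Real.log U + η * J1)) := by positivity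
  obtain ⟨Q, hQdef⟩ : ∃ Q : ℝ, Q = Λ * Real.exp (2 * η) := ⟨_, rfl⟩
  have hQP : Q < (2 : ℝ) ^ α := by rw [hQdef, hΛdef]; exact hQ
  have hQ0 : 0 < Q := by rw [hQdef]; positivity
  obtain ⟨P, hP⟩ : ∃ P : ℝ, P = (2 : ℝ) ^ α := ⟨_, rfl⟩
  have hP0 : 0 < P := by rw [hP]; positivity
  obtain ⟨ρ, hρ⟩ : ∃ ρ : ℝ, ρ = Q / P := ⟨_, rfl⟩
  have hρ0 : 0 < ρ := by rw [hρ]; positivity
  have hρ1 : ρ < 1 := by rw [hρ, div_lt_one hP0, hP]; exact hQP
  obtain ⟨Jc, hJc⟩ : ∃ Jc : ℝ, Jc = (J1 : ℝ) + J0 := ⟨_, rfl⟩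
  have hJc0 : 0 ≤ Jc := by rw [hJc]; positivity
  have hρ2 : 0 < 1 - ρ := by linarith
  have hα0 : 0 ≤ α := by
    by_contra hα0
    push Not at hα0
    have : (2 : ℝ) ^ α < 1 := Real.rpow_lt_one_of_one_lt_of_neg (by norm_num) hα0
    linarith
  have hK00 : 0 < K0 := by rw [hK0]; linarith
  refine ⟨50 * (K0 + 23) * (Q ^ (J1 + J0) * (Jc + ρ / (1 - ρ))) * 6 ^ α + 1, by positivity,
    fun p hp hp1 x x' hl hn2 hne => ?_⟩
  obtain ⟨K, hnK, hKlog⟩ := exists_K hn2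
  obtain ⟨i1, g1, g2, g3, g4⟩ := exists_first_diff hl hne
  obtain ⟨J, hJ⟩ : ∃ J : ℕ, J = J1 + (J0 + K) := ⟨_, rfl⟩
  have hJM : 2 * M0 ≤ η * J := by
    have h1 : (J0 : ℝ) ≤ J := by exact_mod_cast (show J0 ≤ J by omega)
    rw [div_le_iff₀ hη] at hJ0
    calc 2 * M0 ≤ J0 * η := hJ0
      _ ≤ J * η := mul_le_mul_of_nonneg_right h1 hη.le
      _ = η * J := by ring
  have hJ1R : (1 : ℝ) ≤ J := by
    have : η * (J : ℝ) ≤ J := mul_le_of_le_one_left (Nat.cast_nonneg _) hη1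
    linarith
  have hηJ1 : 6 ≤ η * J1 := by
    rw [div_le_iff₀ hη] at hJ1
    linarith
  obtain ⟨κf, hκf0, hκfn, hG⟩ := state_of_step h5 hβ hY hU hV hE hω0 hω hδ hη hη1 hΛdef hΛ3 hEE'
    hE'13 hM0 hJM hηJ1 hJ1R (K0 := K0) (by rw [hK0]; linarith) (by rw [hK0]; linarith)
    (by rw [hK0]; linarith) rfl rfl hJ hn2 hnK hl g2 g3 g4
  have hA1 : 1 ≤ Real.exp (η * J) := Real.one_le_exp (by positivity)
  refine gapF hl g2 g3 hA1 (by positivity) le_rfl (by linarith) hω1 hκf0 hκfn ?_ hp hp1 rfl ?_ hG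
  · positivity
  · exact numF hΛ3 hη hα0 hQdef hP hρ hρ1 hJc (by rw [hK0]; linarith) hp hA1 rfl rfl hJ hJ1R hn2
      hnK hKlog

/-- The upper bound from the analytic step. -/
theorem finalF {lam β Y U V E : ℝ} {ω : ℝ → ℝ} (h5 : StepS lam β Y U V E ω)
    (hlam : 3 ≤ lam) (hβ : 1 ≤ β) (hY : 1 ≤ Y) (hU : 1 ≤ U) (hV : 10 ≤ V) (hE : 0 < E)
    {ω0 : ℝ} (hω0 : 0 < ω0) (hω : ∀ t, 0 ≤ t → t ≤ β → ω0 ≤ ω t)
    (hω1 : ∀ t, 0 ≤ t → t ≤ β → ω t ≤ 1) {α : ℝ} (hα : lam < (2 : ℝ) ^ α) :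
    ∃ C : ℝ, 0 < C ∧ ∀ q : I, (q : ℝ) < 1 → ∀ n : ℕ, 2 ≤ n →
      T q n ≤ (⌊Real.exp (C / (1 - q) * (Real.log n) ^ α)⌋₊ : ℕ∞) := by
  obtain ⟨C, hC, hgap⟩ := gap_of_step h5 hlam hβ hY hU hV hE hω0 hω hω1 hα
  have hα1 : 1 ≤ α := by
    by_contra h
    push Not at h
    have h1 : (2 : ℝ) ^ α ≤ (2 : ℝ) ^ (1 : ℝ) :=
      Real.rpow_le_rpow_of_exponent_le (by norm_num) h.le
    rw [Real.rpow_one] at h1
    linarith
  refine ⟨4 * (C / 2) + 7 * 0.69 ^ (1 - α), by positivity, fun q hq n hn => ?_⟩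
  have hp : 0 < 1 - (q : ℝ) := by linarith
  have hp1 : 1 - (q : ℝ) ≤ 1 := by linarith [q.2.1]
  set p : ℝ := 1 - (q : ℝ) with hpdef
  have hpinv : 1 ≤ 1 / p := by rw [le_div_iff₀ hp]; linarith
  have hnR : (2 : ℝ) ≤ n := by exact_mod_cast hn
  have hlog : 0 < Real.log n := Real.log_pos (by linarith)
  have key : T q n ≤ (⌈(16 / (Real.exp (-(2 * (C / 2 * (1 / p) *
      (Real.log n) ^ α)))) ^ 2) * ((n : ℝ) + 2)⌉₊ : ℕ) := by
    refine T_le_of_gap q n (Real.exp_pos _) (Real.exp_le_one_iff.2 ?_) ?_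
    · have : 0 ≤ C / 2 * (1 / p) * (Real.log n) ^ α := by positivity
      linarith
    intro x x' hxx
    have hlx : (List.ofFn x).length = n := List.length_ofFn
    have hlx' : (List.ofFn x').length = n := List.length_ofFn
    have hll : (List.ofFn x).length = (List.ofFn x').length := by rw [hlx, hlx']
    have hne : List.ofFn x ≠ List.ofFn x' := fun h => hxx (List.ofFn_injective h)
    obtain ⟨Φ, hΦ, hg⟩ := hgap p hp hp1 _ _ hll (by rw [hlx]; exact hn) hne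
    rw [hlx] at hΦ hg
    refine ⟨Φ, hΦ, le_trans (Real.exp_le_exp.2 (le_of_eq ?_)) hg⟩
    ring
  have hnum := Vale.Agent.P321.R3.H94.numericsU hα1 (C := C / 2) (by positivity) hpinv hn
  refine key.trans ?_
  have e1 : (4 * (C / 2) + 7 * 0.69 ^ (1 - α)) * (1 / p) * (Real.log n) ^ α =
      (4 * (C / 2) + 7 * 0.69 ^ (1 - α)) / p * (Real.log n) ^ α := by ring
  rw [e1] at hnum
  exact_mod_cast hnum

end Vale.Agent.P321.H778
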