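import Vale.Agent.P321.H778.GoodF
import Vale.Agent.P321.UB.Final

/-! # From the last state of the iteration to a gap at retention `p` -/

namespace Vale.Agent.P321.H778

open Complex Finset Vale.Agent.P321.UB Vale.Agent.P321.R2.H613

theorem gapF {A m β : ℝ} {ω : ℝ → ℝ} {x x' : List Bool} {i1 : ℕ} (hl : x.length = x'.length)
    (hi : i1 ≤ x.length) (heq : ∀ τ, ∀ i < i1, sq x τ i = sq x' τ i)
    {c κ D : ℝ} {k : ℕ} (hA : 1 ≤ A) (hm : 0 < m) (hcm : c ≤ m) (hβ : 0 ≤ β)
    (hω : ∀ t, 0 ≤ t → t ≤ β → ω t ≤ 1) (hκ : 0 < κ)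
    (hκn : 2 * (1 + β) * κ * ((x.length : ℝ) + 1) ≤ 1) (hD : 0 ≤ D)
    {p q W : ℝ} (hp : 0 < p) (hp1 : p ≤ 1) (hq : q = 1 / (8 * (A ^ 2 + 1)))
    (hW : 3 / (p * q) * (D + 6 * k + Real.log (6 * ((x.length : ℝ) + 1)) + 1) + 2 / p ≤ W)
    (h : GoodF A m β ω x x' i1 c k κ D) :
    ∃ Φ : List Bool → ℂ, (∀ u, u.length ≤ x.length → ‖Φ u‖ ≤ 1) ∧
      Real.exp (-W) ≤ ‖FE p Φ x - FE p Φ x'‖ := by
  by_contra hcon
  push Not at hcon
  obtain ⟨τ, -, hτ, s, hsre, hsim, hNN⟩ := h
  set n := x.length with hndef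
  have hn0 : (0 : ℝ) ≤ n := Nat.cast_nonneg n
  have hA2 : 1 ≤ A ^ 2 := one_le_pow₀ hA
  have hq0 : 0 < q := by rw [hq]; positivity
  have hq16 : q ≤ 1 / 16 := by
    rw [hq]
    apply one_div_le_one_div_of_le (by norm_num)
    linarith
  have hp2 : 0 ≤ 1 - p := by linarith
  -- the class
  have hcls : Cls (InDisc q) k 1 τ := by
    refine hτ.mono (fun z hz => ⟨hz.norm_lt, ?_⟩) le_rfl le_rfl
    refine hz.disc hA hm hcm hq0 ?_
    rw [hq]
    apply le_of_eq
    field_simp
  -- the hypothesis on tests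
  have hT0 : ∀ (B' : ℝ) (Ψ : List Bool → ℂ), 0 ≤ B' → (∀ u, u.length ≤ n → ‖Ψ u‖ ≤ B') →
      ‖FE p Ψ x - FE p Ψ x'‖ ≤ B' * Real.exp (-W) := by
    intro B' Ψ hB' hΨ
    rcases eq_or_lt_of_le hB' with h0 | h0
    · have e1 := FE_norm_le hp.le hp1 Ψ x (B := 0) (fun u hu => by rw [h0]; exact hΨ u hu)
      have e2 := FE_norm_le hp.le hp1 Ψ x' (B := 0) (fun u hu => by
        rw [h0]; exact hΨ u (by rw [hl]; exact hu))
      rw [← h0, zero_mul, norm_le_zero_iff.1 e1, norm_le_zero_iff.1 e2]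
      simp
    · have e1 := hcon (fun u => ((1 / B' : ℝ) : ℂ) * Ψ u + 0 * (fun _ => (0 : ℂ)) u) (fun u hu => by
        beta_reduce
        rw [mul_zero, add_zero, norm_mul, Complex.norm_real, Real.norm_of_nonneg (by positivity)]
        have := mul_le_mul_of_nonneg_left (hΨ u hu) (by positivity : (0 : ℝ) ≤ 1 / B')
        refine this.trans (le_of_eq ?_)
        field_simp)
      rw [FE_lin, FE_lin, zero_mul, zero_mul, add_zero, add_zero, ← mul_sub, norm_mul,
        Complex.norm_real, Real.norm_of_nonneg (by positivity), one_div, ← div_eq_inv_mul,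
        div_lt_iff₀ h0] at e1
      linarith
  have hT : ∀ (B' : ℝ) (σ : List Bool → ℂ), 0 ≤ B' → IsTest (n + 1) p B' σ →
      ‖σ (false :: x) - σ (false :: x')‖ ≤ B' * Real.exp (-W) := by
    intro B' σ hB' hσ
    obtain ⟨Φ, hΦ, hFE⟩ := hσ
    have e1 : ∀ y : List Bool, y.length ≤ n → σ (false :: y) =
        FE p (fun u => (1 - (p : ℂ)) * Φ u + (p : ℂ) * (fun v => Φ (false :: v)) u) y := by
      intro y hy
      rw [FE_lin, ← hFE (false :: y) (by simp; omega), FE_cons]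
    rw [e1 x le_rfl, e1 x' (by rw [← hl])]
    refine hT0 B' _ hB' (fun u hu => ?_)
    have a1 := hΦ u (by omega)
    have a2 := hΦ (false :: u) (by simp; omega)
    calc ‖(1 - (p : ℂ)) * Φ u + (p : ℂ) * Φ (false :: u)‖
        ≤ ‖(1 - (p : ℂ)) * Φ u‖ + ‖(p : ℂ) * Φ (false :: u)‖ := norm_add_le _ _
      _ = (1 - p) * ‖Φ u‖ + p * ‖Φ (false :: u)‖ := by
          rw [norm_mul, norm_mul, norm_one_sub_ofReal hp1, norm_ofReal_nonneg hp.le]
      _ ≤ (1 - p) * B' + p * B' := by gcongr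
      _ = B' := by ring
  -- the top weight
  set z : ℂ := cexp s with hz
  set R : ℝ := 2 * (1 + β) * κ with hR
  have hR0 : 0 ≤ R := by positivity
  have hRn : R * ((n : ℝ) + 1) ≤ 1 := hκn
  have hR1 : R ≤ 1 := by nlinarith
  have hs : ‖s‖ ≤ (1 + β) * κ := by
    have h1 := Complex.norm_le_abs_re_add_abs_im s
    rw [hsre, abs_of_pos hκ] at h1
    linarith
  have hs1 : ‖s‖ ≤ 1 := by linarith
  have hz1 : ‖z - 1‖ ≤ R := by
    have h1 := Complex.norm_exp_sub_one_le hs1
    rw [hR]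
    linarith
  have hzn : ‖z‖ ^ (n + 1) ≤ 3 := by
    rw [hz, Complex.norm_exp, hsre, ← Real.exp_nat_mul]
    have h1 : ((n + 1 : ℕ) : ℝ) * κ ≤ 1 := by
      push_cast
      have h2 : κ * ((n : ℝ) + 1) ≤ R * ((n : ℝ) + 1) := by
        apply mul_le_mul_of_nonneg_right _ (by linarith)
        rw [hR]
        nlinarith
      linarith
    calc Real.exp (((n + 1 : ℕ) : ℝ) * κ) ≤ Real.exp 1 := Real.exp_le_exp.2 h1
      _ ≤ 3 := by linarith [Real.exp_one_lt_d9]
  have hpn : ‖(p : ℂ)‖ = p := norm_ofReal_nonneg hp.le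
  have hqz : ‖(z - 1 + p) / p‖ ≤ 1 + R / p := by
    rw [norm_div, hpn, div_le_iff₀ hp]
    calc ‖z - 1 + p‖ ≤ ‖z - 1‖ + ‖(p : ℂ)‖ := norm_add_le _ _
      _ ≤ R + p := by rw [hpn]; linarith
      _ = (1 + R / p) * p := by field_simp; ring
  have hqn : ‖(z - 1 + p) / p‖ ^ (n + 1) ≤ Real.exp (1 / p) := by
    calc ‖(z - 1 + p) / p‖ ^ (n + 1) ≤ (1 + R / p) ^ (n + 1) :=
          pow_le_pow_left₀ (norm_nonneg _) hqz _
      _ ≤ (Real.exp (R / p)) ^ (n + 1) := by
          refine pow_le_pow_left₀ (by positivity) ?_ _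
          have := Real.add_one_le_exp (R / p)
          linarith
      _ = Real.exp ((R * ((n : ℝ) + 1)) / p) := by
          rw [← Real.exp_nat_mul]; congr 1; push_cast; ring
      _ ≤ Real.exp (1 / p) := Real.exp_le_exp.2 (div_le_div_of_nonneg_right hRn hp.le)
  have hinvp : 1 ≤ 1 / p := by rw [le_div_iff₀ hp]; linarith
  have hamp := amplify (n := n + 1) (x := false :: x) (x' := false :: x') hp hq0 (by linarith)
    (by simp; omega) (by simp; omega) hcls (by norm_num : (1 : ℝ) ≤ 3)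
    (Real.one_le_exp (by linarith)) hzn hqn (Real.exp_pos (-W)).le hT
  -- the lower bound
  have hlow : Real.exp (-D) ≤ ‖Sz z τ (false :: x) - Sz z τ (false :: x')‖ := by
    have f1 : Sz z τ (false :: x) = seqS z (sq x τ) (n + 1) := by
      have g1 : Sz z τ x = seqS z (sq x τ) n := by
        rw [← sq_full x (Sz z τ)]
        exact sq_Sz x z τ n le_rfl
      change z * Sz z τ x + τ x = z * seqS z (sq x τ) n + sq x τ n
      rw [g1, ← sq_full x τ]
    have f2 : Sz z τ (false :: x') = seqS z (sq x' τ) (n + 1) := by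
      have g1 : Sz z τ x' = seqS z (sq x' τ) n := by
        rw [← sq_full x' (Sz z τ), hl]
        exact sq_Sz x' z τ x'.length le_rfl
      change z * Sz z τ x' + τ x' = z * seqS z (sq x' τ) n + sq x' τ n
      rw [g1]
      congr 1
      rw [hl]
      exact (sq_full x' τ).symm
    rw [f1, f2, seqS_sub_eq hi s (heq τ), norm_mul]
    have hexp : 1 ≤ ‖cexp (s * ((n : ℂ) - i1))‖ := by
      rw [Complex.norm_exp]
      have hre : (s * ((n : ℂ) - i1)).re = κ * ((n : ℝ) - i1) := by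
        rw [Complex.mul_re]
        simp [hsre]
      rw [hre]
      have hi' : (i1 : ℝ) ≤ n := by exact_mod_cast hi
      exact Real.one_le_exp (mul_nonneg hκ.le (by linarith))
    have ht1 : |s.im| / κ ≤ β := by rw [div_le_iff₀ hκ]; exact hsim
    have hw := hω _ (by positivity : 0 ≤ |s.im| / κ) ht1
    have h1 : Real.exp (-D) ≤ Real.exp (-(D * ω (|s.im| / κ))) := by
      apply Real.exp_le_exp.2
      have : D * ω (|s.im| / κ) ≤ D := mul_le_of_le_one_right hD hw
      linarith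
    have h2 := h1.trans hNN
    calc Real.exp (-D) = 1 * Real.exp (-D) := (one_mul _).symm
      _ ≤ _ := mul_le_mul hexp h2 (Real.exp_pos _).le (by positivity)
  have hmain := hlow.trans hamp
  -- the numerics
  set t : ℝ := (q / 4) / (1 / (2 * p) + q / 4) with ht
  have hpq0 : 0 < p * q := by positivity
  have hpq1 : p * q ≤ 1 := by nlinarith
  have ht0 : 0 < t := by positivity
  have ht3 : p * q / 3 ≤ t := by
    have e1 : t = p * q / (2 + p * q) := by
      rw [ht]; field_simp; ring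
    rw [e1]
    exact div_le_div_of_nonneg_left hpq0.le (by linarith) (by linarith)
  set S : ℝ := D + 6 * k + Real.log (6 * ((n : ℝ) + 1)) + 1 with hS
  have hk0 : (0 : ℝ) ≤ k := Nat.cast_nonneg k
  have hlog0 : 0 ≤ Real.log (6 * ((n : ℝ) + 1)) := Real.log_nonneg (by linarith)
  have hS0 : 0 < S := by linarith
  have hWS : S ≤ t * (W - 2 / p) := by
    have e1 : 3 / (p * q) * S ≤ W - 2 / p := by linarith
    have e2 : 0 ≤ W - 2 / p := le_trans (by positivity) e1
    calc S = (p * q / 3) * (3 / (p * q) * S) := by field_simp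
      _ ≤ (p * q / 3) * (W - 2 / p) := mul_le_mul_of_nonneg_left e1 (by positivity)
      _ ≤ t * (W - 2 / p) := mul_le_mul_of_nonneg_right ht3 e2
  have hpow : (Real.exp (1 / p) / p * Real.exp (-W)) ^ t ≤ Real.exp (-S) := by
    have e1 : Real.exp (1 / p) / p * Real.exp (-W) ≤ Real.exp (-(W - 2 / p)) := by
      have e2 : 1 / p ≤ Real.exp (1 / p) := by
        have := Real.add_one_le_exp (1 / p); linarith
      calc Real.exp (1 / p) / p * Real.exp (-W) = Real.exp (1 / p) * (1 / p) * Real.exp (-W) := by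
            ring
        _ ≤ Real.exp (1 / p) * Real.exp (1 / p) * Real.exp (-W) := by gcongr
        _ = Real.exp (-(W - 2 / p)) := by
            rw [← Real.exp_add, ← Real.exp_add]; congr 1; ring
    calc (Real.exp (1 / p) / p * Real.exp (-W)) ^ t ≤ (Real.exp (-(W - 2 / p))) ^ t :=
          Real.rpow_le_rpow (by positivity) e1 ht0.le
      _ = Real.exp (-(t * (W - 2 / p))) := by
          rw [← Real.exp_mul]; congr 1; ring
      _ ≤ Real.exp (-S) := Real.exp_le_exp.2 (by linarith)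
  have h400 : (400 : ℝ) ^ k ≤ Real.exp (6 * k) := by
    have e1 : (400 : ℝ) ≤ Real.exp 6 := by
      have e2 : Real.exp 6 = (Real.exp 1) ^ 6 := by
        rw [← Real.exp_nat_mul]; norm_num
      rw [e2]
      have h9 : (2.718 : ℝ) ^ 6 ≤ (Real.exp 1) ^ 6 :=
        pow_le_pow_left₀ (by norm_num) (by linarith [Real.exp_one_gt_d9]) 6
      refine le_trans ?_ h9
      norm_num
    calc (400 : ℝ) ^ k ≤ (Real.exp 6) ^ k := by gcongr
      _ = Real.exp (6 * k) := by rw [← Real.exp_nat_mul]; congr 1; ring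
  have hfin : Real.exp (-D) ≤ Real.exp (-(D + 1)) := by
    refine hmain.trans ?_
    have hpos : 0 < 6 * ((n : ℝ) + 1) := by linarith
    calc (400 : ℝ) ^ k * (2 * 3 * ((n + 1 : ℕ) : ℝ) * 1) *
          (Real.exp (1 / p) / p * Real.exp (-W)) ^ t
        ≤ Real.exp (6 * k) * (6 * ((n : ℝ) + 1)) * Real.exp (-S) := by
          have e3 : 2 * 3 * ((n + 1 : ℕ) : ℝ) * 1 = 6 * ((n : ℝ) + 1) := by push_cast; ring
          rw [e3]
          gcongr
      _ = Real.exp (6 * k) * Real.exp (Real.log (6 * ((n : ℝ) + 1))) * Real.exp (-S) := by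
          rw [Real.exp_log hpos]
      _ = Real.exp (-(D + 1)) := by
          rw [← Real.exp_add, ← Real.exp_add]; congr 1; rw [hS]; ring
  rw [Real.exp_le_exp] at hfin
  linarith

end Vale.Agent.P321.H778
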