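import Mathlib

/-! # The region of admissible weights -/

namespace Vale.Agent.P321.H778

open Complex

/-- The region of weights `e^{-(K + i θ)}` with `K > 0`, `|θ| ≤ A K + √(c K / m)`. -/
def Wt (A m c : ℝ) (z : ℂ) : Prop :=
  ∃ K θ : ℝ, 0 < K ∧ |θ| ≤ A * K + Real.sqrt (c * K / m) ∧ z = cexp (-((K : ℂ) + θ * I))

theorem Wt.mono {A m c c' : ℝ} {z : ℂ} (h : Wt A m c z) (hm : 0 < m) (hc : c ≤ c') :
    Wt A m c' z := by
  obtain ⟨K, θ, h1, h2, h3⟩ := h
  refine ⟨K, θ, h1, h2.trans ?_, h3⟩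
  gcongr

theorem Wt.conj {A m c : ℝ} {z : ℂ} (h : Wt A m c z) : Wt A m c ((starRingEnd ℂ) z) := by
  obtain ⟨K, θ, h1, h2, h3⟩ := h
  refine ⟨K, -θ, h1, by rw [abs_neg]; exact h2, ?_⟩
  rw [h3, ← Complex.exp_conj]
  simp [Complex.conj_ofReal]

theorem sqrt_add_le {m c c' K K' : ℝ} (hm : 0 < m) (hc : 0 ≤ c) (hc' : 0 ≤ c') (hK : 0 ≤ K)
    (hK' : 0 ≤ K') : Real.sqrt (c * K / m) + Real.sqrt (c' * K' / m) ≤
      Real.sqrt ((c + c') * (K + K') / m) := by
  apply Real.le_sqrt_of_sq_le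
  have h1 : 0 ≤ c * K / m := by positivity
  have h2 : 0 ≤ c' * K' / m := by positivity
  have h3 : 2 * (Real.sqrt (c * K / m) * Real.sqrt (c' * K' / m)) ≤ (c * K' + c' * K) / m := by
    rw [← Real.sqrt_mul h1]
    have e : c * K / m * (c' * K' / m) = (c * K' / m) * (c' * K / m) := by ring
    rw [e, Real.sqrt_mul (by positivity)]
    have h4 := sq_nonneg (Real.sqrt (c * K' / m) - Real.sqrt (c' * K / m))
    have h5 := Real.sq_sqrt (show 0 ≤ c * K' / m by positivity)
    have h6 := Real.sq_sqrt (show 0 ≤ c' * K / m by positivity)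
    have h7 : (c * K' + c' * K) / m = c * K' / m + c' * K / m := by ring
    rw [h7]
    nlinarith
  have h5 := Real.sq_sqrt h1
  have h6 := Real.sq_sqrt h2
  have h7 : (c + c') * (K + K') / m = c * K / m + c' * K' / m + (c * K' + c' * K) / m := by ring
  rw [h7, add_sq, h5, h6]
  linarith

theorem Wt.mul {A m c c' : ℝ} {z z' : ℂ} (h : Wt A m c z) (h' : Wt A m c' z') (hm : 0 < m)
    (hc : 0 ≤ c) (hc' : 0 ≤ c') : Wt A m (c + c') (z * z') := by
  obtain ⟨K, θ, h1, h2, h3⟩ := h
  obtain ⟨K', θ', h1', h2', h3'⟩ := h'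
  refine ⟨K + K', θ + θ', by linarith, ?_, ?_⟩
  · have e1 := abs_add_le θ θ'
    have e2 := sqrt_add_le hm hc hc' h1.le h1'.le
    linarith
  · rw [h3, h3', ← Complex.exp_add]
    congr 1
    push_cast
    ring

theorem Wt.norm_lt {A m c : ℝ} {z : ℂ} (h : Wt A m c z) : ‖z‖ < 1 := by
  obtain ⟨K, θ, h1, h2, h3⟩ := h
  rw [h3, Complex.norm_exp]
  simp only [neg_re, add_re, ofReal_re, mul_re, I_re, mul_zero, ofReal_im, I_im, mul_one,
    sub_self, add_zero]
  exact Real.exp_lt_one_iff.2 (by linarith)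

/-- The region lies in the disc of retention `1 - q`. -/
theorem Wt.disc {A m c q : ℝ} {z : ℂ} (h : Wt A m c z) (hA : 1 ≤ A) (hm : 0 < m)
    (hcm : c ≤ m) (hq : 0 < q) (hqA : 8 * (A ^ 2 + 1) * q ≤ 1) : ‖z - q‖ ≤ 1 - q := by
  obtain ⟨K, θ, hK, hθ, rfl⟩ := h
  have hA2 : 1 ≤ A ^ 2 := by nlinarith
  have hq16 : 16 * q ≤ 1 := by nlinarith
  set u := Real.exp (-K) with hu
  have hu0 : 0 < u := Real.exp_pos _
  have hu1 : u < 1 := Real.exp_lt_one_iff.2 (by linarith)
  have huK : u * K ≤ 1 - u := by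
    have h1 := Real.add_one_le_exp K
    have h2 : u * Real.exp K = 1 := by rw [hu, ← Real.exp_add]; simp
    nlinarith
  have hz : cexp (-((K : ℂ) + θ * I)) = (u : ℂ) * cexp ((-θ : ℝ) * I) := by
    rw [hu, Complex.ofReal_exp, ← Complex.exp_add]
    congr 1
    push_cast
    ring
  have hsq : ‖cexp (-((K : ℂ) + θ * I)) - q‖ ^ 2 = u ^ 2 - 2 * q * u * Real.cos θ + q ^ 2 := by
    rw [hz, Complex.sq_norm, Complex.normSq_apply]
    simp only [sub_re, mul_re, ofReal_re, Complex.exp_ofReal_mul_I_re, ofReal_im,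
      Complex.exp_ofReal_mul_I_im, zero_mul, sub_zero, sub_im, mul_im, add_zero,
      Real.cos_neg, Real.sin_neg]
    have := Real.sin_sq_add_cos_sq θ
    linear_combination u ^ 2 * this
  have hkey : 2 * q * (1 - u * Real.cos θ) ≤ 1 - u ^ 2 := by
    have e1 : 1 - u * Real.cos θ = (1 - u) + u * (1 - Real.cos θ) := by ring
    have hcos : 2 * q * (u * (1 - Real.cos θ)) ≤ 1 / 4 * (1 - u) := by
      rcases le_total K 1 with hK1 | hK1
      · have h2 := Real.one_sub_sq_div_two_le_cos (x := θ)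
        have h3 : θ ^ 2 ≤ (2 * A ^ 2 + 2) * K := by
          have h4 : |θ| ≤ A * K + Real.sqrt K := by
            refine hθ.trans ?_
            have : Real.sqrt (c * K / m) ≤ Real.sqrt K := by
              apply Real.sqrt_le_sqrt
              rw [div_le_iff₀ hm]
              nlinarith
            linarith
          have h5 : θ ^ 2 ≤ (A * K + Real.sqrt K) ^ 2 := by
            rw [← sq_abs]
            exact pow_le_pow_left₀ (abs_nonneg _) h4 2
          have h6 := Real.sq_sqrt hK.le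
          have h7 := sq_nonneg (A * K - Real.sqrt K)
          have h8 : A ^ 2 * K ^ 2 ≤ A ^ 2 * K := by
            have : K ^ 2 ≤ K := by nlinarith
            exact mul_le_mul_of_nonneg_left this (by positivity)
          nlinarith
        calc 2 * q * (u * (1 - Real.cos θ)) ≤ 2 * q * (u * (θ ^ 2 / 2)) := by
              apply mul_le_mul_of_nonneg_left _ (by positivity)
              apply mul_le_mul_of_nonneg_left _ hu0.le
              linarith
          _ ≤ 2 * q * (u * (((2 * A ^ 2 + 2) * K) / 2)) := by gcongr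
          _ = 8 * (A ^ 2 + 1) * q * (1 / 4 * (u * K)) := by ring
          _ ≤ 1 * (1 / 4 * (u * K)) := by gcongr
          _ ≤ 1 / 4 * (1 - u) := by linarith
      · have h2 := Real.neg_one_le_cos θ
        have h3 : u ≤ 1 - u := by nlinarith
        calc 2 * q * (u * (1 - Real.cos θ)) ≤ 2 * q * (u * 2) := by
              apply mul_le_mul_of_nonneg_left _ (by positivity)
              apply mul_le_mul_of_nonneg_left _ hu0.le
              linarith
          _ = 16 * q * (1 / 4 * u) := by ring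
          _ ≤ 1 * (1 / 4 * u) := by gcongr
          _ ≤ 1 / 4 * (1 - u) := by linarith
    rw [e1]
    nlinarith
  rw [← sq_le_sq₀ (norm_nonneg _) (by linarith), hsq]
  nlinarith

/-- Which weights are allowed. -/
theorem wt_of {A m κ y : ℝ} (hκ : 0 < κ) (hy : |y| ≤ A * κ + Real.sqrt (κ / m)) :
    Wt A m 1 (cexp (-((κ : ℂ) + y * I))) := by
  refine ⟨κ, y, hκ, ?_, rfl⟩
  rw [one_mul]
  exact hy

/-- The weight of the base test. -/
theorem wt_half {A m : ℝ} (hA : 0 ≤ A) : Wt A m 1 (((1 - (1 / 2 : ℝ) : ℝ)) : ℂ) := by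
  refine ⟨Real.log 2, 0, Real.log_pos (by norm_num), ?_, ?_⟩
  · rw [abs_zero]
    have := Real.log_pos (show (1 : ℝ) < 2 by norm_num)
    positivity
  · have : ((1 - (1 / 2 : ℝ) : ℝ) : ℂ) = ((Real.exp (-Real.log 2) : ℝ) : ℂ) := by
      rw [Real.exp_neg, Real.exp_log (by norm_num)]
      norm_num
    rw [this, Complex.ofReal_exp]
    simp

end Vale.Agent.P321.H778
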