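import Vale.Agent.P321.H778.Amplify
import Vale.Agent.P321.H778.Region
import Vale.Agent.P321.R2.H613.Good6

/-! # State of the iteration at fixed retention: base and step

The analytic step is a hypothesis here (`StepS`), with free parameters. -/

namespace Vale.Agent.P321.H778

open Complex Finset Vale.Agent.P321.UB Vale.Agent.P321.R2.H613

/-- The state of the iteration for the pair `x, x'` with first difference `i1`. -/
def GoodF (A m β : ℝ) (ω : ℝ → ℝ) (x x' : List Bool) (i1 : ℕ) (c : ℝ) (k : ℕ) (κ D : ℝ) : Prop :=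
  ∃ τ : List Bool → ℂ, (∀ y, (starRingEnd ℂ) (τ y) = τ y) ∧ Cls (Wt A m c) k 1 τ ∧
    ∃ s : ℂ, s.re = κ ∧ |s.im| ≤ β * κ ∧
      Real.exp (-(D * ω (|s.im| / κ))) ≤ ‖NN x.length i1 (sq x τ) (sq x' τ) s‖

/-- The induction step, local form. -/
def StepS (lam β Y U V E : ℝ) (ω : ℝ → ℝ) : Prop :=
  ∀ (n i1 : ℕ) (f f' : ℕ → ℂ) (D κ0 κ : ℝ) (s0 : ℂ), i1 ≤ n →
    (∀ i, (starRingEnd ℂ) (f i) = f i) → (∀ i, (starRingEnd ℂ) (f' i) = f' i) →
    E ≤ D → (∀ i ≤ n, ‖f i‖ ≤ 1) → (∀ i ≤ n, ‖f' i‖ ≤ 1) →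
    (∀ i < i1, f i = f' i) → Real.exp (-(D / E)) ≤ κ → V * κ ≤ κ0 → V * κ0 ≤ 1 →
    s0.re = κ0 → |s0.im| ≤ β * κ0 →
    Real.exp (-(D * ω (|s0.im| / κ0))) ≤ ‖NN n i1 f f' s0‖ →
    ∃ g g' F F' : Fin 3 → ℕ → ℂ, (∀ m, Simple6 f f' (g m) (g' m)) ∧
      (∀ m, Derived κ (Y * κ0) (g m) (g' m) (F m) (F' m)) ∧
      ∃ s : ℂ, s.re = U * κ ∧ |s.im| ≤ β * (U * κ) ∧
        Real.exp (-(lam * D * ω (|s.im| / (U * κ)))) ≤
          ‖NN n i1 (fun i => F 0 i * F 1 i * F 2 i) (fun i => F' 0 i * F' 1 i * F' 2 i) s‖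

theorem Cls.smul_le {W : ℂ → Prop} {k : ℕ} {B B' : ℝ} {τ : List Bool → ℂ} (h : Cls W k B τ)
    {c : ℂ} (hc : ‖c‖ * B ≤ B') : Cls W k B' (fun y => c * τ y) :=
  (h.smul c).mono (fun _ h => h) le_rfl hc

/-- Reduction to a real normalised test. -/
theorem real_cls {W : ℂ → Prop} (hW : ∀ z, W z → W ((starRingEnd ℂ) z))
    {x x' : List Bool} {i1 k : ℕ} {B E : ℝ} {T : List Bool → ℂ} {s : ℂ}
    (hB : 0 < B) (hT : Cls W k B T)
    (h : 2 * B * E ≤ ‖NN x.length i1 (sq x T) (sq x' T) s‖) :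
    ∃ τ : List Bool → ℂ, (∀ y, (starRingEnd ℂ) (τ y) = τ y) ∧ Cls W k 1 τ ∧
      E ≤ ‖NN x.length i1 (sq x τ) (sq x' τ) s‖ := by
  have hsplit := NN_re_im x.length i1 (sq x T) (sq x' T) s
  have hor : B * E ≤ ‖NN x.length i1 (fun i => (((sq x T i).re : ℝ) : ℂ))
        (fun i => (((sq x' T i).re : ℝ) : ℂ)) s‖ ∨
      B * E ≤ ‖NN x.length i1 (fun i => (((sq x T i).im : ℝ) : ℂ))
        (fun i => (((sq x' T i).im : ℝ) : ℂ)) s‖ := by
    by_contra hcon
    push Not at hcon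
    rw [hsplit] at h
    have h1 := norm_add_le (NN x.length i1 (fun i => (((sq x T i).re : ℝ) : ℂ))
        (fun i => (((sq x' T i).re : ℝ) : ℂ)) s) (I * NN x.length i1
        (fun i => (((sq x T i).im : ℝ) : ℂ)) (fun i => (((sq x' T i).im : ℝ) : ℂ)) s)
    rw [norm_mul, Complex.norm_I, one_mul] at h1
    linarith [hcon.1, hcon.2]
  have fin : ∀ R : List Bool → ℂ, (∀ y, (starRingEnd ℂ) (R y) = R y) → Cls W k B R →
      B * E ≤ ‖NN x.length i1 (sq x R) (sq x' R) s‖ →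
      ∃ τ : List Bool → ℂ, (∀ y, (starRingEnd ℂ) (τ y) = τ y) ∧ Cls W k 1 τ ∧
        E ≤ ‖NN x.length i1 (sq x τ) (sq x' τ) s‖ := by
    intro R hR1 hR2 hR3
    refine ⟨fun y => ((1 / B : ℝ) : ℂ) * R y, fun y => ?_, hR2.smul_le ?_, ?_⟩
    · rw [map_mul, hR1, Complex.conj_ofReal]
    · rw [Complex.norm_real, Real.norm_of_nonneg (by positivity)]
      apply le_of_eq
      field_simp
    · have e : NN x.length i1 (sq x fun y => ((1 / B : ℝ) : ℂ) * R y)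
          (sq x' fun y => ((1 / B : ℝ) : ℂ) * R y) s =
          ((1 / B : ℝ) : ℂ) * NN x.length i1 (sq x R) (sq x' R) s := by
        rw [← NN_smul]
        rfl
      rw [e, norm_mul, Complex.norm_real, Real.norm_of_nonneg (by positivity), one_div,
        ← div_eq_inv_mul, le_div_iff₀ hB]
      linarith
  rcases hor with h1 | h1
  · exact fin (fun y => (((T y).re : ℝ) : ℂ)) (fun y => Complex.conj_ofReal _) (hT.re hW) h1
  · exact fin (fun y => (((T y).im : ℝ) : ℂ)) (fun y => Complex.conj_ofReal _) (hT.im hW) h1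

/-- The base case, at an arbitrary constant scale. -/
theorem goodF_base {A m β ω0 : ℝ} {ω : ℝ → ℝ} (hA : 0 ≤ A) (hβ : 1 ≤ β) (hω0 : 0 < ω0)
    (hω : ∀ t, 0 ≤ t → t ≤ β → ω0 ≤ ω t) {κb : ℝ} (hκb : 0 < κb) (hκb1 : κb ≤ 1 / 10)
    {x x' : List Bool} {i1 : ℕ}
    (hi : i1 ≤ x.length) (hd : ∀ r : ℝ, 0 ≤ r → ‖sq x (tau0 r) i1 - sq x' (tau0 r) i1‖ = r)
    {D : ℝ} (hD : (4 / κb + 1) * (4 / κb) / ω0 ≤ D) :
    GoodF A m β ω x x' i1 1 1 κb D := by
  set M : ℕ := ⌈Real.pi / κb⌉₊ with hM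
  have hMle : Real.pi / κb ≤ M := Nat.le_ceil _
  have hMlt : (M : ℝ) < Real.pi / κb + 1 := Nat.ceil_lt_add_one (by positivity)
  obtain ⟨s, hs1, hs2, hs3⟩ := base_case (m := x.length + 1 - i1)
    (a := dif i1 (sq x (tau0 (1 / 2))) (sq x' (tau0 (1 / 2)))) (κ0 := κb) (π0 := 1 / 2)
    (M := M) (by omega) hκb hκb1 (fun k _ => by
      simp only [dif, UB.sq]
      exact norm_tau0_sub_le (by norm_num) (by norm_num) _ _)
    (by simp only [dif, add_zero]; exact (hd (1 / 2) (by norm_num)).ge) (by norm_num)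
    (by norm_num) hMle
  refine ⟨tau0 (1 / 2), fun y => ?_, cls_tau0 (by norm_num) (by norm_num) (wt_half hA),
    s, hs1, ?_, ?_⟩
  · exact Complex.conj_eq_iff_im.2 (norm_tau0_le (by norm_num) (by norm_num) y).2.2
  · refine hs2.trans ?_
    exact le_mul_of_one_le_left hκb.le hβ
  · refine le_trans ?_ hs3
    have ht1 : |s.im| / κb ≤ β := by
      rw [div_le_iff₀ hκb]
      exact hs2.trans (le_mul_of_one_le_left hκb.le hβ)
    have ht0 : 0 ≤ |s.im| / κb := by positivity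
    have hw := hω _ ht0 ht1
    have hx : 0 < 1 / 2 * (κb / 2) := by positivity
    rw [← Real.exp_log hx, ← Real.exp_nat_mul]
    apply Real.exp_le_exp.mpr
    have hlog : -(4 / κb) ≤ Real.log (1 / 2 * (κb / 2)) := by
      have h1 := Real.log_le_sub_one_of_pos (inv_pos.2 hx)
      rw [Real.log_inv] at h1
      have h2 : (1 / 2 * (κb / 2))⁻¹ = 4 / κb := by field_simp; norm_num
      rw [h2] at h1
      linarith
    have hM2 : (M : ℝ) ≤ 4 / κb + 1 := by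
      have : Real.pi / κb ≤ 4 / κb := div_le_div_of_nonneg_right Real.pi_le_four hκb.le
      linarith
    have h4k : 0 < 4 / κb := by positivity
    have hD0 : 0 ≤ D := le_trans (by positivity) hD
    have h3 : (4 / κb + 1) * (4 / κb) ≤ D * ω (|s.im| / κb) := by
      have h5 : (4 / κb + 1) * (4 / κb) ≤ D * ω0 := by
        rwa [div_le_iff₀ hω0] at hD
      exact h5.trans (mul_le_mul_of_nonneg_left hw hD0)
    have h4 : (M : ℝ) * (-(4 / κb)) ≤ M * Real.log (1 / 2 * (κb / 2)) :=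
      mul_le_mul_of_nonneg_left hlog (Nat.cast_nonneg _)
    have h5 : (M : ℝ) * (4 / κb) ≤ (4 / κb + 1) * (4 / κb) :=
      mul_le_mul_of_nonneg_right hM2 h4k.le
    linarith

/-- The strings version of a derived pair. -/
theorem exists_cls_of_derived {x x' : List Bool} (hl : x.length = x'.length) {A m c : ℝ}
    (hm : 0 < m) (hc : 1 ≤ c) {k : ℕ} {τ : List Bool → ℂ} {κ Y : ℝ} (hκ : 0 < κ) (hκ1 : κ ≤ 1)
    (hY : Y ≤ A * κ + Real.sqrt (κ / m)) (ht : Cls (Wt A m c) k 1 τ) {g g' F F' : ℕ → ℂ}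
    (hS : Simple6 (sq x τ) (sq x' τ) g g') (h : Derived κ Y g g' F F') :
    ∃ H : List Bool → ℂ, Cls (Wt A m c) (k + 1) (2 / κ) H ∧
      (∀ i ≤ x.length, sq x H i = F i) ∧ (∀ i ≤ x.length, sq x' H i = F' i) := by
  have hκ2 : 1 ≤ 2 / κ := by rw [le_div_iff₀ hκ]; linarith
  obtain ⟨G, hG, hg, hg'⟩ : ∃ G : List Bool → ℂ, Cls (Wt A m c) k 1 G ∧ g = sq x G ∧
      g' = sq x' G := by
    rcases hS with ⟨rfl, rfl⟩ | ⟨rfl, rfl⟩
    · exact ⟨τ, ht, rfl, rfl⟩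
    · exact ⟨fun _ => 1, Cls.one le_rfl, rfl, rfl⟩
  subst hg hg'
  rcases h with ⟨rfl, rfl⟩ | ⟨y, hy, rfl, rfl⟩
  · exact ⟨G, hG.mono (fun _ h => h) (by omega) hκ2, fun i _ => rfl, fun i _ => rfl⟩
  · have hw1 : Wt A m 1 (cexp (-((κ : ℂ) + y * I))) := wt_of hκ (hy.trans hY)
    have hw := hw1.mono hm hc
    refine ⟨Sz (cexp (-((κ : ℂ) + y * I))) G, ?_, fun i hi => sq_Sz x _ G i hi,
      fun i hi => sq_Sz x' _ G i (hl ▸ hi)⟩
    refine (hG.sz hw hw.norm_lt).mono (fun _ h => h) le_rfl ?_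
    have hn : ‖cexp (-((κ : ℂ) + y * I))‖ = Real.exp (-κ) := by
      rw [Complex.norm_exp]
      simp
    rw [hn, one_mul]
    have h1 : κ / 2 ≤ 1 - Real.exp (-κ) := by
      have h2 := Real.exp_bound_div_one_sub_of_interval (x := κ / 2) (by positivity) (by linarith)
      have h3 : Real.exp (-κ) * Real.exp κ = 1 := by rw [← Real.exp_add]; simp
      have h4 := Real.add_one_le_exp κ
      have h5 := Real.exp_pos (-κ)
      nlinarith
    calc 1 / (1 - Real.exp (-κ)) ≤ 1 / (κ / 2) := one_div_le_one_div_of_le (by positivity) h1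
      _ = 2 / κ := by field_simp

/-- The step. -/
theorem goodF_step {lam β Y U V E : ℝ} {ω : ℝ → ℝ} (h5 : StepS lam β Y U V E ω)
    (hV : 1 ≤ V) {ω0 δ E' : ℝ} (hω0 : 0 < ω0) (hω : ∀ t, 0 ≤ t → t ≤ β → ω0 ≤ ω t)
    (hU : 0 < U) (hδ : 0 < δ) (hE : E ≤ E') (hE0 : 0 < E) (hE' : 13 ≤ E' * (δ * ω0))
    {A m : ℝ} (hm : 0 < m) {x x' : List Bool} {i1 : ℕ}
    (hl : x.length = x'.length)
    (hi : i1 ≤ x.length) (heq : ∀ τ, ∀ i < i1, sq x τ i = sq x' τ i)
    {c : ℝ} (hc : 1 ≤ c) {k : ℕ} {κ κ' D : ℝ} (hκ' : 0 < κ') (hκκ : V * κ' ≤ κ)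
    (hκ1 : V * κ ≤ 1) (hY : Y * κ ≤ A * κ' + Real.sqrt (κ' / m))
    (hD : ((k : ℝ) + 1) * E' ≤ D) (hκl : Real.exp (-(D / E')) ≤ κ')
    (h : GoodF A m β ω x x' i1 c k κ D) :
    GoodF A m β ω x x' i1 (3 * c) (3 * k + 3) (U * κ') ((lam + δ) * D) := by
  obtain ⟨τ, hτ, ht, s, hs1, hs2, hs3⟩ := h
  have hE'0 : 0 < E' := lt_of_lt_of_le hE0 hE
  have hk0 : (0 : ℝ) ≤ k := Nat.cast_nonneg k
  have hDE : E' ≤ D := by nlinarith
  have hD0 : 0 < D := by linarith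
  have hκκ' : κ' ≤ κ := (le_mul_of_one_le_left hκ'.le hV).trans hκκ
  have hκ'1 : κ' ≤ 1 := by
    have hκ0 : 0 < κ := lt_of_lt_of_le hκ' hκκ'
    have : κ ≤ V * κ := le_mul_of_one_le_left hκ0.le hV
    linarith
  have hWn : ∀ z, Wt A m c z → ‖z‖ < 1 := fun z hz => hz.norm_lt
  have hnorm : ∀ i ≤ x.length, ‖sq x τ i‖ ≤ 1 := fun i _ => ht.norm_le hWn _
  have hnorm' : ∀ i ≤ x.length, ‖sq x' τ i‖ ≤ 1 := fun i _ => ht.norm_le hWn _
  have hκl5 : Real.exp (-(D / E)) ≤ κ' := by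
    refine le_trans (Real.exp_le_exp.2 (neg_le_neg ?_)) hκl
    exact div_le_div_of_nonneg_left hD0.le hE0 hE
  obtain ⟨g, g', F, F', hS, hDer, s', hs1', hs2', hs3'⟩ := h5 x.length i1 (sq x τ)
    (sq x' τ) D κ κ' s hi (fun i => hτ _) (fun i => hτ _) (hE.trans hDE) hnorm hnorm' (heq τ)
    hκl5 hκκ hκ1 hs1 hs2 hs3
  have hex : ∀ a, ∃ H : List Bool → ℂ, Cls (Wt A m c) (k + 1) (2 / κ') H ∧
      (∀ i ≤ x.length, sq x H i = F a i) ∧ (∀ i ≤ x.length, sq x' H i = F' a i) := fun a =>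
    exists_cls_of_derived hl hm hc hκ' hκ'1 hY ht (hS a) (hDer a)
  choose H hH hHx hHx' using hex
  have hc0 : 0 ≤ c := by linarith
  have m1 := Cls.mul (W := Wt A m (c + c)) (hH 0) (hH 1)
    (fun z hz => hz.mono hm (by linarith)) (fun z hz => hz.mono hm (by linarith))
    (fun z w hz hw => hz.mul hw hm hc0 hc0) (fun z hz => hz.norm_lt)
  have m2 := Cls.mul (W := Wt A m (c + c + c)) m1 (hH 2)
    (fun z hz => hz.mono hm (by linarith)) (fun z hz => hz.mono hm (by linarith))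
    (fun z w hz hw => hz.mul hw hm (by linarith) hc0) (fun z hz => hz.norm_lt)
  have e3c : c + c + c = 3 * c := by ring
  rw [e3c] at m2
  set B : ℝ := 3 ^ (k + 1 + (k + 1) + (k + 1)) *
    (3 ^ (k + 1 + (k + 1)) * (2 / κ' * (2 / κ')) * (2 / κ')) with hB
  have hB0 : 0 < B := by positivity
  have hT : Cls (Wt A m (3 * c)) (3 * k + 3) B (fun y => H 0 y * H 1 y * H 2 y) :=
    m2.mono (fun _ h => h) (by omega) le_rfl
  -- the weight
  have hUκ : 0 < U * κ' := by positivity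
  have ht1 : |s'.im| / (U * κ') ≤ β := by
    rw [div_le_iff₀ hUκ]; exact hs2'
  have ht0 : 0 ≤ |s'.im| / (U * κ') := by positivity
  have hw := hω _ ht0 ht1
  set w := ω (|s'.im| / (U * κ')) with hw'
  have hlogB : 2 * B ≤ Real.exp (δ * D * w) := by
    set y := D / E' with hy
    have hDy : D = E' * y := by rw [hy]; field_simp
    have hky : (k : ℝ) + 1 ≤ y := by
      rw [hy, le_div_iff₀ hE'0]; exact hD
    have h2 : (2 : ℝ) ≤ Real.exp 1 := by
      have := Real.add_one_le_exp (1 : ℝ); linarith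
    have h3 : (3 : ℝ) ≤ Real.exp (6 / 5) := by
      have h3a : (243 : ℝ) ≤ (Real.exp 1) ^ 6 := by
        have h9 : (2.7 : ℝ) ^ 6 ≤ (Real.exp 1) ^ 6 :=
          pow_le_pow_left₀ (by norm_num) (by linarith [Real.exp_one_gt_d9]) 6
        refine le_trans ?_ h9
        norm_num
      have h3b : (Real.exp (6 / 5)) ^ 5 = (Real.exp 1) ^ 6 := by
        rw [← Real.exp_nat_mul, ← Real.exp_nat_mul]
        norm_num
      have h3c : (3 : ℝ) ^ 5 ≤ (Real.exp (6 / 5)) ^ 5 := by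
        rw [h3b]; exact le_trans (by norm_num) h3a
      exact le_of_pow_le_pow_left₀ (by norm_num) (Real.exp_pos _).le h3c
    have hinv : 1 / κ' ≤ Real.exp y := by
      rw [div_le_iff₀ hκ']
      have := mul_le_mul_of_nonneg_left hκl (Real.exp_pos y).le
      rw [← Real.exp_add, add_neg_cancel, Real.exp_zero] at this
      exact this
    have h2k : 2 / κ' ≤ Real.exp (1 + y) := by
      calc 2 / κ' = 2 * (1 / κ') := by ring
        _ ≤ Real.exp 1 * Real.exp y := by gcongr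
        _ = Real.exp (1 + y) := by rw [← Real.exp_add]
    have h3k : (3 : ℝ) ^ (k + 1) ≤ Real.exp (6 / 5 * y) := by
      calc (3 : ℝ) ^ (k + 1) ≤ (Real.exp (6 / 5)) ^ (k + 1) := by gcongr
        _ = Real.exp (((k : ℝ) + 1) * (6 / 5)) := by
          rw [← Real.exp_nat_mul]; congr 1; push_cast; ring
        _ ≤ Real.exp (6 / 5 * y) := Real.exp_le_exp.2 (by linarith)
    have hyy : 1 ≤ y := by linarith
    calc 2 * B = 2 * (((3 : ℝ) ^ (k + 1)) ^ 5 * (2 / κ') ^ 3) := by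
          rw [hB]; ring
      _ ≤ Real.exp 1 * ((Real.exp (6 / 5 * y)) ^ 5 * (Real.exp (1 + y)) ^ 3) := by
          gcongr
      _ = Real.exp (1 + (5 * (6 / 5 * y) + 3 * (1 + y))) := by
          rw [← Real.exp_nat_mul, ← Real.exp_nat_mul, ← Real.exp_add, ← Real.exp_add]
          congr 1
      _ ≤ Real.exp (δ * D * w) := by
          apply Real.exp_le_exp.2
          have h6 : 13 * y ≤ δ * D * ω0 := by
            calc 13 * y ≤ (E' * (δ * ω0)) * y := mul_le_mul_of_nonneg_right hE' (by linarith)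
              _ = δ * D * ω0 := by rw [hDy]; ring
          have h7 : δ * D * ω0 ≤ δ * D * w := mul_le_mul_of_nonneg_left hw (by positivity)
          linarith
  have hfin : 2 * B * Real.exp (-((lam + δ) * D * w)) ≤
      ‖NN x.length i1 (sq x fun y => H 0 y * H 1 y * H 2 y)
        (sq x' fun y => H 0 y * H 1 y * H 2 y) s'‖ := by
    have e1 : 2 * B * Real.exp (-((lam + δ) * D * w)) ≤ Real.exp (-(lam * D * w)) := by
      calc 2 * B * Real.exp (-((lam + δ) * D * w)) ≤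
            Real.exp (δ * D * w) * Real.exp (-((lam + δ) * D * w)) := by gcongr
        _ = Real.exp (-(lam * D * w)) := by
            rw [← Real.exp_add]; congr 1; ring
    refine e1.trans (hs3'.trans (le_of_eq ?_))
    congr 1
    refine NN_congr (fun i hi' => ?_) (fun i hi' => ?_) s'
    · rw [← hHx 0 i hi', ← hHx 1 i hi', ← hHx 2 i hi']
      rfl
    · rw [← hHx' 0 i hi', ← hHx' 1 i hi', ← hHx' 2 i hi']
      rfl
  obtain ⟨T, hT1, hT2, hT3⟩ := real_cls (fun z hz => hz.conj) hB0 hT hfin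
  exact ⟨T, hT1, hT2, s', hs1', hs2', hT3⟩

end Vale.Agent.P321.H778
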