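import Vale.Agent.P321.H778.GapF
import Vale.Agent.P321.R3.H94.FinalU

/-! # Iteration at fixed retention and final assembly

The analytic step `StepS` is a hypothesis. -/

namespace Vale.Agent.P321.H778

open Complex Finset Vale.Agent.P321.UB Vale.Agent.P321.R2.H613
open scoped unitInterval ENNReal

/-- The number of nodes after `j` steps. -/
def kk : ℕ → ℕ
  | 0 => 1
  | j + 1 => 3 * kk j + 3

theorem kk_le (j : ℕ) : kk j + 2 ≤ 3 ^ (j + 1) := by
  induction j with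
  | zero => simp [kk]
  | succ j ih =>
    have e : kk (j + 1) = 3 * kk j + 3 := rfl
    rw [e, pow_succ]
    omega

/-- The steps at low scales. -/
theorem low_phase {P : ℕ → ℝ → Prop} {V Y U A a κb Λ D0 E' m : ℝ} {J J1 : ℕ}
    (hstep : ∀ (j : ℕ) (κ κ' : ℝ), j < J → 0 < κ' → V * κ' ≤ κ → V * κ ≤ 1 →
      Y * κ ≤ A * κ' + Real.sqrt (κ' / m) → Real.exp (-(Λ ^ j * D0 / E')) ≤ κ' →
      P j κ → P (j + 1) (U * κ'))
    (hbase : P 0 κb) (hJ : J1 ≤ J) (hU : 0 < U) (hY : 0 < Y) (hA : 0 < A)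
    (ha : a = A / (U * Y)) (ha1 : 1 ≤ a) (hVY : V * Y ≤ A) (hV : 0 < V) (hκb : 0 < κb)
    (hκb1 : V * κb ≤ 1) (hfl : Real.exp (-(D0 / E')) ≤ κb / a ^ J1 / U) (hΛ : 1 ≤ Λ)
    (hDE : 0 ≤ D0 / E') : ∀ j ≤ J1, P j (κb / a ^ j) := by
  intro j
  induction j with
  | zero => intro _; simpa using hbase
  | succ j ih =>
    intro hj
    have hP := ih (by omega)
    have ha0 : 0 < a := by linarith
    have haj : 1 ≤ a ^ j := one_le_pow₀ ha1
    set κ := κb / a ^ j with hκ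
    have hκ0 : 0 < κ := by positivity
    have hκle : κ ≤ κb := div_le_self hκb.le haj
    have h1 := hstep j κ (Y * κ / A) (by omega) (by positivity) ?_ ?_ ?_ ?_ hP
    · have e1 : U * (Y * κ / A) = κb / a ^ (j + 1) := by
        rw [pow_succ, ← div_div, ← hκ, ha]
        field_simp
      rw [e1] at h1
      exact h1
    · have : V * (Y * κ / A) = (V * Y) * κ / A := by ring
      rw [this, div_le_iff₀ hA]
      have := mul_le_mul_of_nonneg_right hVY hκ0.le
      linarith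
    · exact (mul_le_mul_of_nonneg_left hκle hV.le).trans hκb1
    · have : A * (Y * κ / A) = Y * κ := by field_simp
      rw [this]
      have := Real.sqrt_nonneg (Y * κ / A / m)
      linarith
    · have e1 : Y * κ / A = κb / a ^ (j + 1) / U := by
        rw [pow_succ, ← div_div, ← hκ, ha]
        field_simp
      rw [e1]
      have h2 : Real.exp (-(Λ ^ j * D0 / E')) ≤ Real.exp (-(D0 / E')) := by
        apply Real.exp_le_exp.2
        have h3 : D0 / E' ≤ Λ ^ j * (D0 / E') := le_mul_of_one_le_left hDE (one_le_pow₀ hΛ)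
        have h4 : Λ ^ j * D0 / E' = Λ ^ j * (D0 / E') := by ring
        rw [h4]
        linarith
      refine h2.trans (hfl.trans ?_)
      have h5 : a ^ (j + 1) ≤ a ^ J1 := pow_le_pow_right₀ ha1 hj
      gcongr

/-- The steps at high scales (squaring). -/
theorem high_phase {P : ℕ → ℝ → Prop} {V Y U A c2 κ1 Λ D0 E' m : ℝ} {J J1 : ℕ}
    (hstep : ∀ (j : ℕ) (κ κ' : ℝ), j < J → 0 < κ' → V * κ' ≤ κ → V * κ ≤ 1 →
      Y * κ ≤ A * κ' + Real.sqrt (κ' / m) → Real.exp (-(Λ ^ j * D0 / E')) ≤ κ' →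
      P j κ → P (j + 1) (U * κ'))
    (hbase : P J1 κ1) (hU : 1 ≤ U) (hY : 1 ≤ Y) (hA : 0 < A) (hV : 0 < V) (hm : 1 ≤ m)
    (hc2 : c2 = U * m * Y ^ 2) (hκ1 : 0 < κ1) (h1 : c2 * κ1 ≤ 1) (h2 : V * m * Y ^ 2 * κ1 ≤ 1)
    (h3 : V * κ1 ≤ 1) (hfl : Real.exp (-(D0 / E')) ≤ (κ1 / U) ^ 2) (hΛ : 2 ≤ Λ)
    (hDE : 0 ≤ D0 / E') : ∀ i : ℕ, J1 + i ≤ J → P (J1 + i) ((c2 * κ1) ^ (2 ^ i) / c2) := by
  have hc2' : 1 ≤ c2 := by
    rw [hc2]
    have e1 : 1 ≤ U * m := one_le_mul_of_one_le_of_one_le hU hm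
    exact one_le_mul_of_one_le_of_one_le e1 (one_le_pow₀ hY)
  have hc20 : 0 < c2 := by linarith
  intro i
  induction i with
  | zero =>
    intro _
    have : (c2 * κ1) ^ (2 ^ 0) / c2 = κ1 := by
      rw [pow_zero, pow_one]; field_simp
    rw [this, add_zero]
    exact hbase
  | succ i ih =>
    intro hj
    have hP := ih (by omega)
    set κ := (c2 * κ1) ^ (2 ^ i) / c2 with hκ
    have hκ0 : 0 < κ := by positivity
    have hκle : κ ≤ κ1 := by
      rw [hκ, div_le_iff₀ hc20]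
      calc (c2 * κ1) ^ (2 ^ i) ≤ (c2 * κ1) ^ 1 :=
            pow_le_pow_of_le_one (by positivity) h1 Nat.one_le_two_pow
        _ = κ1 * c2 := by ring
    have h4 := hstep (J1 + i) κ (m * (Y * κ) ^ 2) (by omega) (by positivity) ?_ ?_ ?_ ?_ hP
    · have e1 : U * (m * (Y * κ) ^ 2) = (c2 * κ1) ^ (2 ^ (i + 1)) / c2 := by
        have e2 : (c2 * κ1) ^ (2 ^ (i + 1)) = ((c2 * κ1) ^ (2 ^ i)) ^ 2 := by
          rw [← pow_mul, pow_succ]
        have e3 : (c2 * κ1) ^ (2 ^ i) = κ * c2 := by rw [hκ]; field_simp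
        rw [e2, e3]
        have e4 : U * (m * (Y * κ) ^ 2) = c2 * κ ^ 2 := by rw [hc2]; ring
        rw [e4]
        field_simp
      rw [e1] at h4
      have e5 : J1 + (i + 1) = J1 + i + 1 := by omega
      rw [e5]
      exact h4
    · have e1 : V * (m * (Y * κ) ^ 2) = (V * m * Y ^ 2 * κ) * κ := by ring
      rw [e1]
      apply mul_le_of_le_one_left hκ0.le
      refine le_trans ?_ h2
      gcongr
    · exact (mul_le_mul_of_nonneg_left hκle hV.le).trans h3
    · have e1 : m * (Y * κ) ^ 2 / m = (Y * κ) ^ 2 := by field_simp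
      rw [e1, Real.sqrt_sq (by positivity)]
      have : 0 ≤ A * (m * (Y * κ) ^ 2) := by positivity
      linarith
    · -- the floor
      have hlow : κ1 ^ (2 ^ i) ≤ κ := by
        rw [hκ, le_div_iff₀ hc20, mul_pow, mul_comm]
        apply mul_le_mul_of_nonneg_right _ (by positivity)
        calc c2 = c2 ^ 1 := (pow_one _).symm
          _ ≤ c2 ^ (2 ^ i) := pow_le_pow_right₀ hc2' Nat.one_le_two_pow
      have h5 : (κ1 / U) ^ (2 ^ i) ≤ κ := by
        refine le_trans (pow_le_pow_left₀ (by positivity) (div_le_self hκ1.le hU) _) hlow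
      calc Real.exp (-(Λ ^ (J1 + i) * D0 / E')) ≤ Real.exp (-(2 ^ i * (D0 / E'))) := by
            apply Real.exp_le_exp.2
            have h6 : (2 : ℝ) ^ i ≤ Λ ^ (J1 + i) := by
              calc (2 : ℝ) ^ i ≤ Λ ^ i := pow_le_pow_left₀ (by norm_num) hΛ i
                _ ≤ Λ ^ (J1 + i) := pow_le_pow_right₀ (by linarith) (by omega)
            have h7 := mul_le_mul_of_nonneg_right h6 hDE
            have h8 : Λ ^ (J1 + i) * D0 / E' = Λ ^ (J1 + i) * (D0 / E') := by ring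
            rw [h8]
            linarith
        _ = (Real.exp (-(D0 / E'))) ^ (2 ^ i) := by
            rw [← Real.exp_nat_mul]; congr 1; push_cast; ring
        _ ≤ ((κ1 / U) ^ 2) ^ (2 ^ i) := pow_le_pow_left₀ (Real.exp_pos _).le hfl _
        _ = ((κ1 / U) ^ (2 ^ i)) ^ 2 := by rw [← pow_mul, ← pow_mul, mul_comm]
        _ ≤ κ ^ 2 := pow_le_pow_left₀ (by positivity) h5 2
        _ ≤ m * (Y * κ) ^ 2 := by
            have e1 : m * (Y * κ) ^ 2 = (m * Y ^ 2) * κ ^ 2 := by ring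
            rw [e1]
            apply le_mul_of_one_le_left (by positivity)
            exact one_le_mul_of_one_le_of_one_le hm (one_le_pow₀ hY)

/-- The number of squarings. -/
theorem exists_K {n : ℕ} (hn : 2 ≤ n) : ∃ K : ℕ, n ≤ 2 ^ (2 ^ K) ∧ (2 : ℝ) ^ K ≤ 6 * Real.log n := by
  set ℓ := Nat.clog 2 n with hℓ
  set K := Nat.clog 2 ℓ with hK
  have h1 : n ≤ 2 ^ ℓ := Nat.le_pow_clog (by norm_num) n
  have h2 : ℓ ≤ 2 ^ K := Nat.le_pow_clog (by norm_num) ℓ
  have hnR : (2 : ℝ) ≤ n := by exact_mod_cast hn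
  have hlog2 : 0.69 ≤ Real.log n := by
    have h1 : Real.log 2 ≤ Real.log n := Real.log_le_log (by norm_num) hnR
    linarith [Real.log_two_gt_d9]
  refine ⟨K, h1.trans (Nat.pow_le_pow_right (by norm_num) h2), ?_⟩
  have hℓ1 : 1 ≤ ℓ := Nat.clog_pos (by norm_num) hn
  have h3 : 2 ^ K ≤ 2 * ℓ := by
    rcases Nat.lt_or_ge ℓ 2 with h | h
    · have : ℓ = 1 := by omega
      rw [hK, this]
      simp
    · have h4 : 2 ^ (K - 1) < ℓ := by
        rw [hK]
        exact Nat.pow_pred_clog_lt_self (by norm_num) (by omega)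
      have h5 : 1 ≤ K := Nat.clog_pos (by norm_num) h
      have h6 : 2 ^ K = 2 ^ (K - 1) * 2 := by
        rw [← pow_succ]; congr 1; omega
      omega
  have h4 : 2 ^ (ℓ - 1) < n := by
    rw [hℓ]
    exact Nat.pow_pred_clog_lt_self (by norm_num) (by omega)
  have h5 : (2 : ℝ) ^ (ℓ - 1) ≤ n := by exact_mod_cast h4.le
  have h6 : ((ℓ - 1 : ℕ) : ℝ) * Real.log 2 ≤ Real.log n := by
    rw [← Real.log_pow]
    exact Real.log_le_log (by positivity) h5
  have h7 : ((ℓ - 1 : ℕ) : ℝ) = (ℓ : ℝ) - 1 := by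
    rw [Nat.cast_sub hℓ1]; simp
  have h8 : (2 : ℝ) ^ K ≤ 2 * ℓ := by exact_mod_cast h3
  rw [h7] at h6
  have h9 : (0 : ℝ) ≤ (ℓ : ℝ) - 1 := by
    have : (1 : ℝ) ≤ ℓ := by exact_mod_cast hℓ1
    linarith
  have h10 : ((ℓ : ℝ) - 1) * 0.69 ≤ Real.log n :=
    (mul_le_mul_of_nonneg_left (by linarith [Real.log_two_gt_d9]) h9).trans h6
  linarith

end Vale.Agent.P321.H778
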