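import Vale.Agent.P321.UB.Tests

/-! # Monomial tests (weighted subsequence statistics), their product and their norm -/

namespace Vale.Agent.P321.H778

open Complex Finset Vale.Agent.P321.UB

/-- A node of a monomial: its weight and whether the bit is read. -/
abbrev Node : Type := ℂ × Bool

/-- The value of the letter `b`; it is `1` if the node does not read. -/
noncomputable def rd (c b : Bool) : ℂ := if c then (if b then 1 else 0) else 1

theorem rd_mul (c c' b : Bool) : rd c b * rd c' b = rd (c || c') b := by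
  cases c <;> cases c' <;> cases b <;> simp [rd]

theorem norm_rd_le (c b : Bool) : ‖rd c b‖ ≤ 1 := by
  cases c <;> cases b <;> simp [rd]

theorem conj_rd (c b : Bool) : (starRingEnd ℂ) (rd c b) = rd c b := by
  cases c <;> cases b <;> simp [rd]

/-- The operator on functions of strings attached to a node. -/
noncomputable def nd (z : ℂ) (c : Bool) (τ : List Bool → ℂ) : List Bool → ℂ
  | [] => 0
  | b :: y => z * nd z c τ y + rd c b * τ y

/-- The monomial test with the nodes `Z`. -/
noncomputable def O : List Node → List Bool → ℂ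
  | [] => fun _ => 1
  | v :: Z => nd v.1 v.2 (O Z)

theorem nd_nil (z : ℂ) (c : Bool) (τ : List Bool → ℂ) : nd z c τ [] = 0 := rfl

theorem nd_cons (z : ℂ) (c : Bool) (τ : List Bool → ℂ) (b : Bool) (y : List Bool) :
    nd z c τ (b :: y) = z * nd z c τ y + rd c b * τ y := rfl

theorem Sz_eq_nd (z : ℂ) (τ : List Bool → ℂ) : Sz z τ = nd z false τ := by
  funext y
  induction y with
  | nil => rfl
  | cons b y ih =>
    rw [nd_cons, ← ih]
    simp [Sz, rd]

theorem nd_lin (z : ℂ) (c : Bool) (a : ℂ) (τ σ : List Bool → ℂ) (y : List Bool) :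
    nd z c (fun u => a * τ u + σ u) y = a * nd z c τ y + nd z c σ y := by
  induction y with
  | nil => simp [nd]
  | cons b y ih =>
    rw [nd_cons, nd_cons, nd_cons, ih]
    ring

theorem nd_zero (z : ℂ) (c : Bool) (y : List Bool) : nd z c (fun _ => 0) y = 0 := by
  induction y with
  | nil => rfl
  | cons b y ih => rw [nd_cons, ih]; ring

theorem nd_conj (z : ℂ) (c : Bool) (τ : List Bool → ℂ) (y : List Bool) :
    (starRingEnd ℂ) (nd z c τ y) =
      nd ((starRingEnd ℂ) z) c (fun u => (starRingEnd ℂ) (τ u)) y := by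
  induction y with
  | nil => simp [nd]
  | cons b y ih => rw [nd_cons, nd_cons, ← ih, map_add, map_mul, map_mul, conj_rd]

/-- The product rule. -/
theorem nd_mul (z1 z2 : ℂ) (c1 c2 : Bool) (τ1 τ2 : List Bool → ℂ) (y : List Bool) :
    nd z1 c1 τ1 y * nd z2 c2 τ2 y =
      z1 * nd (z1 * z2) c2 (fun u => nd z1 c1 τ1 u * τ2 u) y +
      (z2 * nd (z1 * z2) c1 (fun u => τ1 u * nd z2 c2 τ2 u) y +
      nd (z1 * z2) (c1 || c2) (fun u => τ1 u * τ2 u) y) := by
  induction y with
  | nil => simp [nd]
  | cons b y ih =>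
    simp only [nd_cons]
    rw [← rd_mul]
    linear_combination z1 * z2 * ih

/-- The size of a string function under a node. -/
theorem nd_norm_le {z : ℂ} (hz : ‖z‖ < 1) (c : Bool) {τ : List Bool → ℂ} {B : ℝ} {n : ℕ}
    (h : ∀ y : List Bool, y.length ≤ n → ‖τ y‖ ≤ B) (y : List Bool) (hy : y.length ≤ n) :
    ‖nd z c τ y‖ ≤ B * (1 / (1 - ‖z‖)) := by
  have hB : 0 ≤ B := (norm_nonneg _).trans (h [] (by simp))
  have h1 : 0 < 1 - ‖z‖ := by linarith
  induction y with
  | nil =>
    rw [nd_nil, norm_zero]
    positivity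
  | cons b y ih =>
    have hy' : y.length ≤ n := by simp at hy; omega
    have e1 := ih hy'
    have e2 := h y hy'
    have e3 := norm_rd_le c b
    rw [nd_cons]
    calc ‖z * nd z c τ y + rd c b * τ y‖ ≤ ‖z * nd z c τ y‖ + ‖rd c b * τ y‖ := norm_add_le _ _
      _ = ‖z‖ * ‖nd z c τ y‖ + ‖rd c b‖ * ‖τ y‖ := by rw [norm_mul, norm_mul]
      _ ≤ ‖z‖ * (B * (1 / (1 - ‖z‖))) + 1 * B := by
        gcongr
      _ = B * (1 / (1 - ‖z‖)) := by
        field_simp
        ring

/-! ## The trace side -/

/-- The function of traces behind `nd`. -/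
noncomputable def ndP (r : ℝ) (z : ℂ) (c : Bool) (Φ : List Bool → ℂ) : List Bool → ℂ
  | [] => 0
  | b :: u => ((z - 1 + r) / r) * ndP r z c Φ u + (1 / (r : ℂ)) * (rd c b * Φ u)

theorem FE_ndP {r : ℝ} {z : ℂ} {c : Bool} (hr : 0 < r) {Φ τ : List Bool → ℂ} {n : ℕ}
    (h : ∀ y : List Bool, y.length ≤ n → FE r Φ y = τ y) (y : List Bool) (hy : y.length ≤ n) :
    FE r (ndP r z c Φ) y = nd z c τ y := by
  induction y with
  | nil => rfl
  | cons b y ih =>
    have hrC : (r : ℂ) ≠ 0 := by exact_mod_cast hr.ne'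
    have hy' : y.length ≤ n := by simp at hy; omega
    rw [FE_cons]
    have e : FE r (fun u => ndP r z c Φ (b :: u)) y =
        ((z - 1 + r) / r) * FE r (ndP r z c Φ) y + (rd c b / (r : ℂ)) * FE r Φ y := by
      rw [← FE_lin]
      congr 1
      funext u
      change ((z - 1 + r) / r) * ndP r z c Φ u + (1 / (r : ℂ)) * (rd c b * Φ u) = _
      ring
    rw [e, ih hy', h y hy', nd_cons]
    field_simp
    ring

theorem ndP_norm_le {r : ℝ} {z : ℂ} (hr : 0 < r) (hz : ‖(z - 1 + r) / r‖ < 1) (c : Bool)
    {Φ : List Bool → ℂ} {B : ℝ} {n : ℕ} (h : ∀ y : List Bool, y.length ≤ n → ‖Φ y‖ ≤ B)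
    (y : List Bool) (hy : y.length ≤ n) :
    ‖ndP r z c Φ y‖ ≤ B * (1 / (r * (1 - ‖(z - 1 + r) / r‖))) := by
  have hB : 0 ≤ B := (norm_nonneg _).trans (h [] (by simp))
  set w : ℂ := (z - 1 + r) / r with hw
  have h1 : 0 < 1 - ‖w‖ := by linarith
  induction y with
  | nil =>
    have : ndP r z c Φ [] = 0 := rfl
    rw [this, norm_zero]
    positivity
  | cons b y ih =>
    have hy' : y.length ≤ n := by simp at hy; omega
    have e1 := ih hy'
    have e2 := h y hy'
    have e3 := norm_rd_le c b
    have e4 : ‖(1 / (r : ℂ))‖ = 1 / r := by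
      rw [norm_div, norm_one, norm_ofReal_nonneg hr.le]
    change ‖w * ndP r z c Φ y + (1 / (r : ℂ)) * (rd c b * Φ y)‖ ≤ _
    calc ‖w * ndP r z c Φ y + (1 / (r : ℂ)) * (rd c b * Φ y)‖
        ≤ ‖w * ndP r z c Φ y‖ + ‖(1 / (r : ℂ)) * (rd c b * Φ y)‖ := norm_add_le _ _
      _ = ‖w‖ * ‖ndP r z c Φ y‖ + (1 / r) * (‖rd c b‖ * ‖Φ y‖) := by
        rw [norm_mul, norm_mul, norm_mul, e4]
      _ ≤ ‖w‖ * (B * (1 / (r * (1 - ‖w‖)))) + (1 / r) * (1 * B) := by
        gcongr
      _ = B * (1 / (r * (1 - ‖w‖))) := by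
        field_simp
        ring

/-- The function of traces behind the monomial. -/
noncomputable def OP (r : ℝ) : List Node → List Bool → ℂ
  | [] => fun _ => 1
  | v :: Z => ndP r v.1 v.2 (OP r Z)

theorem FE_OP {r : ℝ} (hr : 0 < r) (Z : List Node) (y : List Bool) : FE r (OP r Z) y = O Z y := by
  induction Z generalizing y with
  | nil => exact FE_const r 1 y
  | cons v Z ih => exact FE_ndP hr (n := y.length) (fun u _ => ih u) y le_rfl

/-! ## Linear combinations of monomials -/

/-- A linear combination of monomials. -/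
abbrev Comb : Type := List (ℂ × List Node)

/-- The value of a linear combination of monomials. -/
noncomputable def ev : Comb → List Bool → ℂ
  | [] => fun _ => 0
  | a :: L => fun y => a.1 * O a.2 y + ev L y

/-- The weight of a monomial. -/
noncomputable def nu : List Node → ℝ
  | [] => 1
  | v :: Z => nu Z * (1 / (1 - ‖v.1‖))

/-- The norm of a linear combination of monomials. -/
noncomputable def nuL : Comb → ℝ
  | [] => 0
  | a :: L => ‖a.1‖ * nu a.2 + nuL L

/-- All weights of the monomials satisfy `W`, and all monomials have at most `k` nodes. -/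
def Adm (W : ℂ → Prop) (k : ℕ) (L : Comb) : Prop :=
  ∀ a ∈ L, a.2.length ≤ k ∧ ∀ v ∈ a.2, W v.1

theorem ev_append (L M : Comb) (y : List Bool) : ev (L ++ M) y = ev L y + ev M y := by
  induction L with
  | nil => simp [ev]
  | cons a L ih =>
    change a.1 * O a.2 y + ev (L ++ M) y = a.1 * O a.2 y + ev L y + ev M y
    rw [ih]; ring

theorem nuL_append (L M : Comb) : nuL (L ++ M) = nuL L + nuL M := by
  induction L with
  | nil => simp [nuL]
  | cons a L ih =>
    change ‖a.1‖ * nu a.2 + nuL (L ++ M) = ‖a.1‖ * nu a.2 + nuL L + nuL M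
    rw [ih]; ring

theorem nu_pos {Z : List Node} (h : ∀ v ∈ Z, ‖v.1‖ < 1) : 0 < nu Z := by
  induction Z with
  | nil => exact one_pos
  | cons v Z ih =>
    have h1 := ih (fun v hv => h v (List.mem_cons_of_mem _ hv))
    have h2 := h v List.mem_cons_self
    have : 0 < 1 - ‖v.1‖ := by linarith
    change 0 < nu Z * (1 / (1 - ‖v.1‖))
    positivity

theorem one_le_inv_one_sub {z : ℂ} (h : ‖z‖ < 1) : 1 ≤ 1 / (1 - ‖z‖) := by
  rw [le_div_iff₀ (by linarith)]
  linarith [norm_nonneg z]

theorem nuL_nonneg {L : Comb} (h : ∀ a ∈ L, ∀ v ∈ a.2, ‖v.1‖ < 1) : 0 ≤ nuL L := by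
  induction L with
  | nil => exact le_rfl
  | cons a L ih =>
    have h1 := ih (fun a ha => h a (List.mem_cons_of_mem _ ha))
    have h2 := nu_pos (h a List.mem_cons_self)
    change 0 ≤ ‖a.1‖ * nu a.2 + nuL L
    positivity

theorem O_norm_le {Z : List Node} (h : ∀ v ∈ Z, ‖v.1‖ < 1) (y : List Bool) : ‖O Z y‖ ≤ nu Z := by
  induction Z generalizing y with
  | nil => simp [O, nu]
  | cons v Z ih =>
    exact nd_norm_le (h v List.mem_cons_self) v.2 (n := y.length)
      (fun u _ => ih (fun v hv => h v (List.mem_cons_of_mem _ hv)) u) y le_rfl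

theorem ev_norm_le {L : Comb} (h : ∀ a ∈ L, ∀ v ∈ a.2, ‖v.1‖ < 1) (y : List Bool) :
    ‖ev L y‖ ≤ nuL L := by
  induction L with
  | nil => simp [ev, nuL]
  | cons a L ih =>
    have h1 := ih (fun a ha => h a (List.mem_cons_of_mem _ ha))
    have h2 := O_norm_le (h a List.mem_cons_self) y
    change ‖a.1 * O a.2 y + ev L y‖ ≤ ‖a.1‖ * nu a.2 + nuL L
    calc ‖a.1 * O a.2 y + ev L y‖ ≤ ‖a.1 * O a.2 y‖ + ‖ev L y‖ := norm_add_le _ _
      _ ≤ ‖a.1‖ * nu a.2 + nuL L := by
        rw [norm_mul]
        gcongr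

/-- Put a node in front of every monomial and multiply the coefficients. -/
noncomputable def consL (a : ℂ) (v : Node) (L : Comb) : Comb :=
  L.map fun p => (a * p.1, v :: p.2)

theorem ev_consL (a : ℂ) (v : Node) (L : Comb) (y : List Bool) :
    ev (consL a v L) y = a * nd v.1 v.2 (ev L) y := by
  induction L with
  | nil =>
    change (0 : ℂ) = a * nd v.1 v.2 (fun _ => 0) y
    rw [nd_zero]; ring
  | cons p L ih =>
    change a * p.1 * O (v :: p.2) y + ev (consL a v L) y =
      a * nd v.1 v.2 (fun u => p.1 * O p.2 u + ev L u) y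
    rw [ih, nd_lin]
    change a * p.1 * nd v.1 v.2 (O p.2) y + _ = _
    ring

theorem nuL_consL (a : ℂ) (v : Node) (L : Comb) :
    nuL (consL a v L) = ‖a‖ * (1 / (1 - ‖v.1‖)) * nuL L := by
  induction L with
  | nil => change (0 : ℝ) = _ * 0; ring
  | cons p L ih =>
    change ‖a * p.1‖ * (nu p.2 * (1 / (1 - ‖v.1‖))) + nuL (consL a v L) =
      ‖a‖ * (1 / (1 - ‖v.1‖)) * (‖p.1‖ * nu p.2 + nuL L)
    rw [ih, norm_mul]
    ring

/-- Multiply the coefficients. -/
noncomputable def smulL (a : ℂ) (L : Comb) : Comb := L.map fun p => (a * p.1, p.2)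

theorem ev_smulL (a : ℂ) (L : Comb) (y : List Bool) : ev (smulL a L) y = a * ev L y := by
  induction L with
  | nil => change (0 : ℂ) = a * 0; ring
  | cons p L ih =>
    change a * p.1 * O p.2 y + ev (smulL a L) y = a * (p.1 * O p.2 y + ev L y)
    rw [ih]; ring

theorem nuL_smulL (a : ℂ) (L : Comb) : nuL (smulL a L) = ‖a‖ * nuL L := by
  induction L with
  | nil => change (0 : ℝ) = _ * 0; ring
  | cons p L ih =>
    change ‖a * p.1‖ * nu p.2 + nuL (smulL a L) = ‖a‖ * (‖p.1‖ * nu p.2 + nuL L)
    rw [ih, norm_mul]; ring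

/-- The product of two monomials. -/
noncomputable def mulM : List Node → List Node → Comb
  | [], Z => [(1, Z)]
  | v :: W, [] => [(1, v :: W)]
  | v :: W, v' :: W' =>
    consL v.1 (v.1 * v'.1, v'.2) (mulM (v :: W) W') ++
    (consL v'.1 (v.1 * v'.1, v.2) (mulM W (v' :: W')) ++
    consL 1 (v.1 * v'.1, v.2 || v'.2) (mulM W W'))
  termination_by Z Z' => Z.length + Z'.length

theorem ev_single (Z : List Node) (y : List Bool) : ev [(1, Z)] y = O Z y := by
  simp [ev]

theorem nuL_single (Z : List Node) : nuL [(1, Z)] = nu Z := by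
  simp [nuL]

theorem ev_mulM (Z Z' : List Node) (y : List Bool) : ev (mulM Z Z') y = O Z y * O Z' y := by
  induction hk : Z.length + Z'.length using Nat.strong_induction_on generalizing Z Z' y with
  | _ k ih =>
    match Z, Z' with
    | [], Z' =>
      rw [mulM, ev_single]
      simp [O]
    | v :: W, [] =>
      rw [mulM, ev_single]
      simp [O]
    | v :: W, v' :: W' =>
      rw [mulM, ev_append, ev_append, ev_consL, ev_consL, ev_consL]
      change _ = nd v.1 v.2 (O W) y * nd v'.1 v'.2 (O W') y
      rw [nd_mul]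
      simp only [List.length_cons] at hk
      have e1 : ev (mulM (v :: W) W') = fun u => nd v.1 v.2 (O W) u * O W' u := by
        funext u
        exact ih _ (by simp only [List.length_cons]; omega) (v :: W) W' u rfl
      have e2 : ev (mulM W (v' :: W')) = fun u => O W u * nd v'.1 v'.2 (O W') u := by
        funext u
        exact ih _ (by simp only [List.length_cons]; omega) W (v' :: W') u rfl
      have e3 : ev (mulM W W') = fun u => O W u * O W' u := by
        funext u
        exact ih _ (by omega) W W' u rfl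
      rw [e1, e2, e3, one_mul]

theorem inv_one_sub_mul_le {z w : ℂ} (hz : ‖z‖ < 1) (hw : ‖w‖ < 1) :
    1 / (1 - ‖z * w‖) ≤ 1 / (1 - ‖z‖) := by
  apply one_div_le_one_div_of_le (by linarith)
  rw [norm_mul]
  nlinarith [norm_nonneg z, norm_nonneg w]

theorem nuL_mulM_le {Z Z' : List Node} (hZ : ∀ v ∈ Z, ‖v.1‖ < 1) (hZ' : ∀ v ∈ Z', ‖v.1‖ < 1) :
    nuL (mulM Z Z') ≤ 3 ^ (Z.length + Z'.length) * (nu Z * nu Z') := by
  induction hk : Z.length + Z'.length using Nat.strong_induction_on generalizing Z Z' with
  | _ k ih =>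
    subst hk
    match Z, Z' with
    | [], Z' =>
      rw [mulM, nuL_single]
      have h1 := nu_pos hZ'
      have h2 : (1 : ℝ) ≤ 3 ^ (([] : List Node).length + Z'.length) := one_le_pow₀ (by norm_num)
      change nu Z' ≤ _ * (1 * nu Z')
      rw [one_mul]
      exact le_mul_of_one_le_left h1.le h2
    | v :: W, [] =>
      rw [mulM, nuL_single]
      have h1 := nu_pos hZ
      have h2 : (1 : ℝ) ≤ 3 ^ ((v :: W).length + ([] : List Node).length) :=
        one_le_pow₀ (by norm_num)
      change nu (v :: W) ≤ _ * (nu (v :: W) * 1)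
      rw [mul_one]
      exact le_mul_of_one_le_left h1.le h2
    | v :: W, v' :: W' =>
      have hv := hZ v List.mem_cons_self
      have hv' := hZ' v' List.mem_cons_self
      have hW : ∀ u ∈ W, ‖u.1‖ < 1 := fun u hu => hZ u (List.mem_cons_of_mem _ hu)
      have hW' : ∀ u ∈ W', ‖u.1‖ < 1 := fun u hu => hZ' u (List.mem_cons_of_mem _ hu)
      have i1 := ih _ (by simp only [List.length_cons]; omega) hZ hW' rfl
      have i2 := ih _ (by simp only [List.length_cons]; omega) hW hZ' rfl
      have i3 := ih _ (by simp only [List.length_cons]; omega) hW hW' rfl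
      have p1 := nu_pos hW
      have p2 := nu_pos hW'
      have p3 := nu_pos hZ
      have p4 := nu_pos hZ'
      have q1 := one_le_inv_one_sub hv
      have q2 := one_le_inv_one_sub hv'
      have q3 : 0 < 1 / (1 - ‖v.1 * v'.1‖) := by
        have : ‖v.1 * v'.1‖ < 1 := by
          rw [norm_mul]; nlinarith [norm_nonneg v.1, norm_nonneg v'.1]
        have : 0 < 1 - ‖v.1 * v'.1‖ := by linarith
        positivity
      have q4 := inv_one_sub_mul_le hv hv'
      have q5 : 1 / (1 - ‖v.1 * v'.1‖) ≤ 1 / (1 - ‖v'.1‖) := by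
        rw [mul_comm]; exact inv_one_sub_mul_le hv' hv
      have n0 : nuL (mulM W W') ≤ 3 ^ (W.length + W'.length) * (nu W * nu W') := i3
      have eW : nu (v :: W) = nu W * (1 / (1 - ‖v.1‖)) := rfl
      have eW' : nu (v' :: W') = nu W' * (1 / (1 - ‖v'.1‖)) := rfl
      set a := 1 / (1 - ‖v.1‖) with ha
      set a' := 1 / (1 - ‖v'.1‖) with ha'
      set b := 1 / (1 - ‖v.1 * v'.1‖) with hb
      rw [mulM, nuL_append, nuL_append, nuL_consL, nuL_consL, nuL_consL]
      simp only [norm_one, one_mul]
      rw [← hb]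
      have hl : (v :: W).length + (v' :: W').length = W.length + W'.length + 2 := by
        simp only [List.length_cons]; omega
      have hl1 : (v :: W).length + W'.length = W.length + W'.length + 1 := by
        simp only [List.length_cons]; omega
      have hl2 : W.length + (v' :: W').length = W.length + W'.length + 1 := by
        simp only [List.length_cons]; omega
      rw [hl1] at i1
      rw [hl2] at i2
      rw [hl]
      set T : ℝ := 3 ^ (W.length + W'.length) with hT
      have hTpos : 0 < T := by positivity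
      have t1 : (3 : ℝ) ^ (W.length + W'.length + 1) = 3 * T := by rw [pow_succ, hT]; ring
      have t2 : (3 : ℝ) ^ (W.length + W'.length + 2) = 9 * T := by rw [pow_add, hT]; ring
      rw [t1, eW] at i1
      rw [t1, eW'] at i2
      rw [t2, eW, eW']
      have m0 : 0 < nu W * nu W' := mul_pos p1 p2
      have s1 : ‖v.1‖ * b * nuL (mulM (v :: W) W') ≤ 3 * T * (nu W * a * (nu W' * a')) := by
        calc ‖v.1‖ * b * nuL (mulM (v :: W) W') ≤ 1 * b * (3 * T * (nu W * a * nu W')) := by
              have : 0 ≤ nuL (mulM (v :: W) W') ∨ nuL (mulM (v :: W) W') < 0 := le_or_gt 0 _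
              rcases this with h0 | h0
              · gcongr
              · have e1 : ‖v.1‖ * b * nuL (mulM (v :: W) W') ≤ 0 :=
                  mul_nonpos_of_nonneg_of_nonpos (by positivity) h0.le
                refine e1.trans ?_
                positivity
          _ ≤ 1 * a' * (3 * T * (nu W * a * nu W')) := by
              gcongr
          _ = 3 * T * (nu W * a * (nu W' * a')) := by ring
      have s2 : ‖v'.1‖ * b * nuL (mulM W (v' :: W')) ≤ 3 * T * (nu W * a * (nu W' * a')) := by
        calc ‖v'.1‖ * b * nuL (mulM W (v' :: W')) ≤ 1 * b * (3 * T * (nu W * (nu W' * a'))) := by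
              have : 0 ≤ nuL (mulM W (v' :: W')) ∨ nuL (mulM W (v' :: W')) < 0 := le_or_gt 0 _
              rcases this with h0 | h0
              · gcongr
              · have e1 : ‖v'.1‖ * b * nuL (mulM W (v' :: W')) ≤ 0 :=
                  mul_nonpos_of_nonneg_of_nonpos (by positivity) h0.le
                refine e1.trans ?_
                positivity
          _ ≤ 1 * a * (3 * T * (nu W * (nu W' * a'))) := by
              gcongr
          _ = 3 * T * (nu W * a * (nu W' * a')) := by ring
      have s3 : b * nuL (mulM W W') ≤ T * (nu W * a * (nu W' * a')) := by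
        calc b * nuL (mulM W W') ≤ b * (T * (nu W * nu W')) := by
              gcongr
          _ ≤ a * (T * (nu W * nu W')) := by
              gcongr
          _ ≤ a * (T * (nu W * nu W')) * a' := le_mul_of_one_le_right (by positivity) q2
          _ = T * (nu W * a * (nu W' * a')) := by ring
      have s4 : 0 < T * (nu W * a * (nu W' * a')) := by positivity
      linarith

theorem adm_mulM {W1 W2 W : ℂ → Prop} {Z Z' : List Node} (hZ : ∀ v ∈ Z, W1 v.1)
    (hZ' : ∀ v ∈ Z', W2 v.1) (h1 : ∀ z, W1 z → W z) (h2 : ∀ z, W2 z → W z)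
    (h12 : ∀ z w, W1 z → W2 w → W (z * w)) : Adm W (Z.length + Z'.length) (mulM Z Z') := by
  induction hk : Z.length + Z'.length using Nat.strong_induction_on generalizing Z Z' with
  | _ k ih =>
    subst hk
    match Z, Z' with
    | [], Z' =>
      rw [mulM]
      intro a ha
      rw [List.mem_singleton] at ha
      subst ha
      exact ⟨by simp, fun v hv => h2 _ (hZ' v hv)⟩
    | v :: V, [] =>
      rw [mulM]
      intro a ha
      rw [List.mem_singleton] at ha
      subst ha
      exact ⟨by simp, fun v hv => h1 _ (hZ v hv)⟩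
    | v :: V, v' :: V' =>
      have hv := hZ v List.mem_cons_self
      have hv' := hZ' v' List.mem_cons_self
      have hV : ∀ u ∈ V, W1 u.1 := fun u hu => hZ u (List.mem_cons_of_mem _ hu)
      have hV' : ∀ u ∈ V', W2 u.1 := fun u hu => hZ' u (List.mem_cons_of_mem _ hu)
      have i1 := ih _ (by simp only [List.length_cons]; omega) hZ hV' rfl
      have i2 := ih _ (by simp only [List.length_cons]; omega) hV hZ' rfl
      have i3 := ih _ (by simp only [List.length_cons]; omega) hV hV' rfl
      have hw := h12 _ _ hv hv'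
      rw [mulM]
      intro a ha
      rw [List.mem_append, List.mem_append] at ha
      have key : ∀ (m : ℕ) (M : Comb) (c : ℂ) (u : Node), Adm W m M →
          m + 1 ≤ (v :: V).length + (v' :: V').length → W u.1 → a ∈ consL c u M →
          a.2.length ≤ (v :: V).length + (v' :: V').length ∧ ∀ t ∈ a.2, W t.1 := by
        intro m M c u hM hm hu haM
        unfold consL at haM
        rw [List.mem_map] at haM
        obtain ⟨p, hp, rfl⟩ := haM
        obtain ⟨k1, k2⟩ := hM p hp
        refine ⟨?_, fun t ht => ?_⟩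
        · simp only [List.length_cons] at *
          omega
        · rcases List.mem_cons.1 ht with rfl | ht
          · exact hu
          · exact k2 t ht
      rcases ha with ha | ha | ha
      · exact key _ _ _ _ i1 (by simp only [List.length_cons]; omega) hw ha
      · exact key _ _ _ _ i2 (by simp only [List.length_cons]; omega) hw ha
      · exact key _ _ _ _ i3 (by simp only [List.length_cons]; omega) hw ha

end Vale.Agent.P321.H778
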