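import Vale.Agent.P321.H775.StepQn
import Vale.Agent.P321.H678.LocQ
import Vale.Agent.P321.H852.Level
import Vale.Agent.P321.H778.FinalQ

/-! # Exponent two plus epsilon -/

namespace Vale.Agent.P321.H778

open Complex Finset Vale.Agent.P321.UB Vale.Agent.P321.R2.H613 unitInterval

/-- the level lemma in the form used by the assembly -/
theorem levelQ_of {η : ℝ} (hη : 0 < η) (hη1 : η ≤ 1 / 10) :
    H775.LevelQ η (10 ^ 6 / η) := by
  intro n i1 N f f' D κj κ θ T β s0 hβ hT hT2 hi hreal hreal' hf hf' heq hn hD hκ hκκ hκj hθ0 hκθ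
    hN1 hN2 hs0 hs0i hs
  have hD0 : 0 < D := lt_of_lt_of_le (by positivity) hD
  have h10 : 2 / η ≤ 10 / η := by gcongr; norm_num
  obtain ⟨φ, x, h1, h2, h3, a, ha, h4⟩ := H852.level_q (n := n) (i1 := i1) (N := N) (f := f)
    (f' := f') (D := D) (η := η) (β := β) (T := T) (κj := κj) (κ := κ) (θ := θ) (s0 := s0) hη hη1
    (by linarith) hreal hreal' hf hf' heq hn hD hκ hκκ hκj hθ0 hκθ hN1 hN2 hs0 hs0i hs
  have hκj0 : 0 < κj := lt_of_lt_of_le (by positivity) hκκ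
  refine ⟨φ, x, h1, h2, ?_, a, ha, ?_⟩
  · intro t ht
    obtain ⟨j, hj, hj2⟩ := h3 t (by
      refine ht.trans ?_
      apply mul_le_mul_of_nonneg_right _ hκj0.le
      linarith)
    refine ⟨j, hj, hj2.trans ?_⟩
    apply mul_le_mul_of_nonneg_right _ hD0.le
    linarith
  · refine h4.trans ?_
    apply mul_le_mul_of_nonneg_right _ hD0.le
    linarith

/-- the two statements of the step -/
theorem stepQ_conv {lam β Y V E K : ℝ} {S : ℕ} (h : H775.StepQ lam β Y V E K S) :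
    StepQ lam β Y V E K S := by
  intro n i1 f f' D κ0 κ s0 hi hreal hreal' hE hf heq hκl hκ hκ0 hs
  exact h n i1 f f' D κ0 κ s0 hi (fun j _ => hreal j) (fun j _ => hreal' j) hE
    (fun j hj i hi' => (hf j hj i hi').1) (fun j hj i hi' => (hf j hj i hi').2) heq hκl hκ hκ0
    (fun j hj => (hs j hj).1) (fun j hj => (hs j hj).2.1) (fun j hj => (hs j hj).2.2)

/-- The step with factor `4 + ε`. -/
theorem stepQ_four {ε : ℝ} (hε : 0 < ε) : ∃ lam β Y V E K : ℝ, ∃ S : ℕ,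
    StepQ lam β Y V E K S ∧ 4 ≤ lam ∧ lam ≤ 4 + ε ∧ 1 ≤ β ∧ 1 ≤ Y ∧ 1 ≤ K ∧ 10 ≤ V ∧ 0 < E := by
  obtain ⟨η, hη, hη1, hηε⟩ : ∃ η : ℝ, 0 < η ∧ η ≤ 1 / 10 ∧ 100 * η ≤ ε := by
    refine ⟨min (1 / 10) (ε / 100), by positivity, min_le_left _ _, ?_⟩
    have := min_le_right (1 / 10 : ℝ) (ε / 100)
    linarith
  obtain ⟨S, hS⟩ : ∃ S : ℕ, 1 + 3 / η ≤ 2 ^ S := by
    obtain ⟨S, hS⟩ := pow_unbounded_of_one_lt (1 + 3 / η) (by norm_num : (1 : ℝ) < 2)
    exact ⟨S, hS.le⟩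
  obtain ⟨V, hV⟩ : ∃ V : ℝ, V = 10 + 10 ^ 6 / η + 30000 / η ^ 2 := ⟨_, rfl⟩
  have a1 : 0 ≤ 10 ^ 6 / η := by positivity
  have a2 : 0 ≤ 30000 / η ^ 2 := by positivity
  have hst := H775.stepQn_of (η := η) (V := 10 ^ 6 / η) hη hη1 (levelQ_of hη hη1) (S := S) hS
    (V' := V) (by linarith) (by linarith)
  have hK : 1 ≤ 700 / η ^ 2 := by
    rw [le_div_iff₀ (by positivity)]; nlinarith
  obtain ⟨E', hE', hst'⟩ := H678.stepQ_local (lam := 4 + 50 * η) (lam' := 4 + 100 * η) (by linarith)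
    (by linarith) (by positivity) (by linarith) hK hst
  refine ⟨4 + 100 * η, 13 / η, 80 / η, V, E', 700 / η ^ 2, S, stepQ_conv hst', by linarith,
    by linarith, ?_, ?_, hK, by linarith, lt_of_lt_of_le (by positivity) hE'⟩
  · rw [le_div_iff₀ hη]; linarith
  · rw [le_div_iff₀ hη]; linarith

/-- Trace reconstruction at every retention probability: exponent `2 + ε`. -/
theorem exp_two {α : ℝ} (hα : 2 < α) :
    ∃ C : ℝ, 0 < C ∧ ∀ q : I, (q : ℝ) < 1 → ∀ n : ℕ, 2 ≤ n →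
      T q n ≤ (⌊Real.exp (C / (1 - q) * (Real.log n) ^ α)⌋₊ : ℕ∞) :=
  final_two (fun _ hε => stepQ_four hε) hα

end Vale.Agent.P321.H778
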